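import Crest.Agent.N265.G.Mod

/-! # Task G3: basic properties of `G X`, dévissage to reduced modules -/

set_option autoImplicit false
noncomputable section
open MvPolynomial

namespace Crest.Agent.N265
open GM
variable {X : Spc}

lemma cl_of_on {M : GM} (h : M.On X) : cl X M = (QuotientAddGroup.mk (FreeAbelianGroup.of ⟨M, h⟩) :
    _ ⧸ AddSubgroup.closure (GRel X)) := dif_pos h
lemma cl_of_not_on {M : GM} (h : ¬ M.On X) : cl X M = 0 := dif_neg h
lemma GM.SES.on_left {A B C : GM} (h : SES A B C) (hB : B.On X) : A.On X :=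
  let ⟨_, _, hf, _, hi, _⟩ := h; hB.of_inj hf hi
lemma GM.SES.on_right {A B C : GM} (h : SES A B C) (hB : B.On X) : C.On X :=
  let ⟨_, _, _, hp, _, _, hs⟩ := h; hB.of_surj hp hs
lemma GM.SES.red_left {A B C : GM} (h : SES A B C) (hB : B.Red X) : A.Red X :=
  let ⟨_, _, hf, _, hi, _⟩ := h; hB.of_inj hf hi
lemma GM.SES.red_right {A B C : GM} (h : SES A B C) (hB : B.Red X) : C.Red X :=
  let ⟨_, _, _, hp, _, _, hs⟩ := h; hB.of_surj hp hs
lemma GM.Irr.of_inj {A B : GM} {f : A.M →ₗ[R] B.M} (hi : Function.Injective f) (h : B.Irr X) :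
    A.Irr X := fun x hx => (h x hx).imp fun r hr =>
  ⟨hr.1, fun m => hi (by rw [map_smul, hr.2, map_zero])⟩
lemma GM.Irr.of_surj {A B : GM} {f : A.M →ₗ[R] B.M} (hi : Function.Surjective f) (h : A.Irr X) :
    B.Irr X := fun x hx => (h x hx).imp fun r hr =>
  ⟨hr.1, fun m => by obtain ⟨a, rfl⟩ := hi m; rw [← map_smul, hr.2, map_zero]⟩
lemma GM.SES.irr_left {A B C : GM} (h : SES A B C) (hB : B.Irr X) : A.Irr X :=
  let ⟨_, _, _, _, hi, _⟩ := h; hB.of_inj hi
lemma GM.SES.irr_right {A B C : GM} (h : SES A B C) (hB : B.Irr X) : C.Irr X :=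
  let ⟨_, _, _, _, _, _, hs⟩ := h; hB.of_surj hs
lemma GM.Irr.of_subsingleton {A : GM} (h : ∀ m : A.M, m = 0) : A.Irr X :=
  fun _ _ => ⟨1, by simp, fun _ => h _⟩
lemma GM.Deg0.comp {A B C : GM} {f : A.M →ₗ[R] B.M} {p : B.M →ₗ[R] C.M} (hp : Deg0 p)
    (hf : Deg0 f) : Deg0 (p ∘ₗ f) := fun m => (congrArg p (hf m)).trans (hp (f m))
lemma GM.ses_ker_range {A B : GM} {f : A.M →ₗ[R] B.M} (hf : Deg0 f) :
    SES (A.sub _ hf.stab_ker) A (B.sub _ hf.stab_range) :=
  ⟨(LinearMap.ker f).subtype, f.rangeRestrict, fun _ => rfl, fun m => Subtype.ext (hf m),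
    Subtype.val_injective, fun a => ⟨fun h => ⟨⟨a, congrArg Subtype.val h⟩, rfl⟩,
      fun ⟨b, h⟩ => h ▸ Subtype.ext b.2⟩, f.surjective_rangeRestrict⟩
/-- lifting a degree zero map along an injection -/
lemma GM.exists_liftInj {A B Z : GM} {f : A.M →ₗ[R] B.M} (hf : Deg0 f) (hi : Function.Injective f)
    {u : Z.M →ₗ[R] B.M} (hu : Deg0 u) (h : ∀ z, ∃ a, f a = u z) :
    ∃ l : Z.M →ₗ[R] A.M, Deg0 l ∧ ∀ z, f (l z) = u z := by
  choose l hl using h
  refine ⟨⟨⟨l, fun a b => hi ?_⟩, fun r a => hi ?_⟩, fun m => hi ?_, hl⟩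
  · simp only [hl, map_add]
  · simp only [hl, map_smul, RingHom.id_apply]
  · exact (hl _).trans ((hu m).trans ((congrArg B.g (hl m).symm).trans (hf _).symm))
/-- descending a degree zero map along a surjection -/
lemma GM.exists_descSurj {A B Z : GM} {q : A.M →ₗ[R] B.M} (hq : Deg0 q)
    (hs : Function.Surjective q) {u : A.M →ₗ[R] Z.M} (hu : Deg0 u) (h : ∀ a, q a = 0 → u a = 0) :
    ∃ l : B.M →ₗ[R] Z.M, Deg0 l ∧ ∀ a, l (q a) = u a := by
  let l : B.M →ₗ[R] Z.M := (LinearMap.ker q).liftQ u h ∘ₗ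
    (q.quotKerEquivOfSurjective hs).symm.toLinearMap
  have hl : ∀ a, l (q a) = u a := fun a => by
    have : (q.quotKerEquivOfSurjective hs).symm (q a) = Submodule.Quotient.mk a :=
      (LinearEquiv.symm_apply_eq _).2 rfl
    exact congrArg ((LinearMap.ker q).liftQ u h) this
  refine ⟨l, fun m => ?_, hl⟩
  obtain ⟨a, rfl⟩ := hs m
  rw [← hq, hl, hl, hu]

lemma cl_ses {A B C : GM} (h : SES A B C) (hB : B.On X) : cl X B = cl X A + cl X C := by
  rw [cl_of_on hB, cl_of_on (h.on_left hB), cl_of_on (h.on_right hB)]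
  have := (QuotientAddGroup.eq_zero_iff _).2 (AddSubgroup.subset_closure (k := GRel X)
    (Or.inl ⟨⟨A, h.on_left hB⟩, ⟨B, hB⟩, ⟨C, h.on_right hB⟩, h, rfl⟩))
  rw [QuotientAddGroup.mk_sub, QuotientAddGroup.mk_sub, sub_sub, sub_eq_zero] at this
  exact this
lemma cl_irr {A : GM} (h : A.Irr X) : cl X A = 0 := by
  by_cases hA : A.On X
  · rw [cl_of_on hA]
    exact (QuotientAddGroup.eq_zero_iff _).2 (AddSubgroup.subset_closure (Or.inr ⟨⟨A, hA⟩, h, rfl⟩))
  · exact cl_of_not_on hA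
lemma cl_zero : cl X GM.zero = 0 := cl_irr Irr.zero
lemma GM.ses_of_bij {A B : GM} {f : A.M →ₗ[R] B.M} (hf : Deg0 f) (h : Function.Bijective f) :
    SES A B GM.zero :=
  ⟨f, 0, hf, fun _ => rfl, h.1, fun b => ⟨fun _ => h.2 b, fun _ => rfl⟩, fun _ => ⟨0, rfl⟩⟩
lemma cl_bij {A B : GM} {f : A.M →ₗ[R] B.M} (hf : Deg0 f) (h : Function.Bijective f) :
    cl X A = cl X B := by
  by_cases hB : B.On X
  · rw [cl_ses (ses_of_bij hf h) hB, cl_zero, add_zero]
  · rw [cl_of_not_on hB, cl_of_not_on fun hA => hB (hA.of_surj hf h.2)]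
lemma cl_iso {A B : GM} (e : A.M ≃ₗ[R] B.M) (he : Deg0 e.toLinearMap) : cl X A = cl X B :=
  cl_bij he e.bijective
lemma cl_prod {A B : GM} (hA : A.On X) (hB : B.On X) : cl X (prod A B) = cl X A + cl X B :=
  cl_ses (ses_prod A B) (hA.prod hB)
lemma cl_pw {ι : Type} [Fintype ι] {deg : ι → D} (hd : ∀ i, deg i ∈ DS X.B) {M : GM}
    (h : M.On X) : cl X (pw deg M) = ∑ i, cl X (M.shift (deg i)) := by
  revert deg
  refine Fintype.induction_empty_option (P := fun ι _ => ∀ {deg : ι → D}, (∀ i, deg i ∈ DS X.B) →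
    cl X (pw deg M) = ∑ i, cl X (M.shift (deg i))) ?_ ?_ ?_ ι
  · intro α β _ e ih deg hd
    let _ := Fintype.ofEquiv β e.symm
    rw [← e.sum_comp, ← ih (deg := fun a => deg (e a)) fun a => hd _]
    exact cl_iso (A := pw deg M) (B := pw (fun a => deg (e a)) M)
      (LinearEquiv.funCongrLeft R M.M e) fun _ => rfl
  · intro deg _
    rw [Finset.univ_eq_empty, Finset.sum_empty]
    exact cl_irr (Irr.of_subsingleton fun m => funext fun i => i.elim)
  · intro α _ ih deg hd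
    classical
    rw [Fintype.sum_option, ← ih (deg := fun a => deg (some a)) fun a => hd _]
    refine cl_ses ⟨LinearMap.single R (fun _ : Option α => M.M) none,
      LinearMap.funLeft R M.M some, fun m => funext fun i => ?_, fun _ => rfl,
      Pi.single_injective (M := fun _ : Option α => M.M) none, fun m => ⟨fun hm => ?_, ?_⟩,
      LinearMap.funLeft_surjective_of_injective R M.M _ (Option.some_injective α)⟩ (h.pw hd)
    · cases i with
      | none => rfl
      | some a => exact ((congrArg _ (map_zero M.g)).trans (smul_zero _)).symm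
    · refine ⟨m none, funext fun i => ?_⟩
      cases i with
      | none => rfl
      | some a => exact (congrFun hm a).symm
    · rintro ⟨a, rfl⟩
      rfl
lemma cl_sq {M : GM} (hM : M.On X) {N P : Submodule R M.M} (hN : M.Stab N) (hP : M.Stab P)
    (h : P ≤ N) : cl X (M.sq N P hN hP) = cl X (M.sub N hN) - cl X (M.sub P hP) := by
  have hs : (M.sub N hN).Stab (P.comap N.subtype) := fun _ hm => hP _ hm
  rw [cl_ses (ses_sub_quot hs) (hM.sub hN), cl_iso (A := (M.sub N hN).sub _ hs) (B := M.sub P hP)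
    (Submodule.comapSubtypeEquivOfLe h) fun _ => rfl, add_sub_cancel_left]
  rfl
/-- Euler characteristic of a three term complex -/
lemma cl_cx {A B C : GM} (hA : A.On X) (hB : B.On X) (hC : C.On X) (f : A.M →ₗ[R] B.M)
    (p : B.M →ₗ[R] C.M) (hf : Deg0 f) (hp : Deg0 p) (h : ∀ a, p (f a) = 0) :
    cl X A - cl X B + cl X C = cl X (A.sub _ hf.stab_ker)
      - cl X (B.sq _ _ hp.stab_ker hf.stab_range) + cl X (C.quot _ hp.stab_range) := by
  rw [cl_sq hB hp.stab_ker hf.stab_range (by rintro _ ⟨a, rfl⟩; exact h a),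
    cl_ses (ses_ker_range hf) hA, cl_ses (ses_ker_range hp) hB,
    cl_ses (ses_sub_quot hp.stab_range) hC]
  abel
lemma cl_locSES {A B C : GM} (h : LocSES X A B C) (hA : A.On X) (hB : B.On X) (hC : C.On X) :
    cl X B = cl X A + cl X C := by
  obtain ⟨f, p, hf, hp, h0, h⟩ := h
  have := cl_cx hA hB hC f p hf hp h0
  rw [cl_irr (A := A.sub _ hf.stab_ker), cl_irr (A := B.sq _ _ hp.stab_ker hf.stab_range),
    cl_irr (A := C.quot _ hp.stab_range), sub_zero, add_zero, sub_add_eq_add_sub, sub_eq_zero] at this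
  · exact this.symm
  · refine fun x hx => (h x hx).imp fun r hr => ⟨hr.1, fun m => ?_⟩
    obtain ⟨c, rfl⟩ := Submodule.Quotient.mk_surjective _ m
    exact (Submodule.Quotient.mk_eq_zero _).2 (hr.2.2.2 c)
  · refine fun x hx => (h x hx).imp fun r hr => ⟨hr.1, fun m => ?_⟩
    obtain ⟨c, rfl⟩ := Submodule.Quotient.mk_surjective _ m
    exact (Submodule.Quotient.mk_eq_zero _).2 (hr.2.2.1 c.1 c.2)
  · exact fun x hx => (h x hx).imp fun r hr => ⟨hr.1, fun m => Subtype.ext (hr.2.1 m.1 m.2)⟩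
/-- a map that is an isomorphism near every point -/
lemma cl_locIso {A B : GM} (f : A.M →ₗ[R] B.M) (hf : Deg0 f) (hA : A.On X) (hB : B.On X)
    (h : ∀ x ∈ X.pts, ∃ r : R, eval x r ≠ 0 ∧ (∀ a, f a = 0 → r • a = 0) ∧ ∀ b, ∃ a, f a = r • b) :
    cl X A = cl X B := by
  rw [cl_locSES (C := GM.zero) ⟨f, 0, hf, fun _ => rfl, fun _ => rfl, fun x hx => (h x hx).imp
    fun r hr => ⟨hr.1, hr.2.1, fun b _ => hr.2.2 b, fun _ => ⟨0, rfl⟩⟩⟩ hA hB On.zero, cl_zero,
    add_zero]

lemma G.ind {P : G X → Prop} (h0 : P 0) (hcl : ∀ M : GM, M.On X → P (cl X M))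
    (hneg : ∀ a, P a → P (-a)) (hadd : ∀ a b, P a → P b → P (a + b)) (a : G X) : P a := by
  induction a using QuotientAddGroup.induction_on with
  | H z =>
    induction z using FreeAbelianGroup.induction_on with
    | zero => exact h0
    | of M => exact cl_of_on M.2 ▸ hcl M.1 M.2
    | neg M h => exact hneg _ h
    | add a b ha hb => exact hadd _ _ ha hb
lemma G.hom_ext {A : Type*} [AddCommGroup A] {φ ψ : G X →+ A}
    (h : ∀ M : GM, M.On X → φ (cl X M) = ψ (cl X M)) : φ = ψ :=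
  AddMonoidHom.ext (G.ind (by simp) h (fun a h => by simp [h]) fun a b h h' => by simp [h, h'])
lemma G.exists_lift {A : Type*} [AddCommGroup A] (φ : GM → A)
    (hs : ∀ A B C : GM, SES A B C → B.On X → φ B = φ A + φ C)
    (hi : ∀ A : GM, A.On X → A.Irr X → φ A = 0) :
    ∃ Φ : G X →+ A, ∀ M : GM, M.On X → Φ (cl X M) = φ M := by
  refine ⟨QuotientAddGroup.lift (AddSubgroup.closure (GRel X))
    (FreeAbelianGroup.lift fun M : {M : GM // M.On X} => φ M.1)
    ((AddSubgroup.closure_le _).2 ?_), fun M hM => ?_⟩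
  · rintro _ (⟨A, B, C, h, rfl⟩ | ⟨A, h, rfl⟩)
    · simp [hs _ _ _ h B.2]
    · simp [hi _ A.2 h]
  · rw [cl_of_on hM]
    exact FreeAbelianGroup.lift_apply_of _ _

/-- a supported module is killed by a power of the ideal up to an irrelevant module -/
lemma GM.On.exists_pow {M : GM} (h : M.On X) : ∃ n : ℕ, ∀ x ∈ X.pts, ∃ r : R, eval x r ≠ 0 ∧
    ∀ m ∈ X.I ^ n • (⊤ : Submodule R M.M), r • m = 0 := by
  obtain ⟨V, hV⟩ := M.fin
  have hV' : ∀ v ∉ V, (MvPolynomial.X v : R) ∈ Module.annihilator R M.M :=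
    fun v hv => Module.mem_annihilator.2 (hV v hv)
  have := noeth_quot _ V hV'
  obtain ⟨n, hn⟩ := IsNoetherianRing.isNilpotent_nilradical (R ⧸ Module.annihilator R M.M)
  refine ⟨n, fun x hx => ?_⟩
  choose! u hu hu' using X.rel x hx
  have hle : Ideal.span {∏ b ∈ X.B, (MvPolynomial.X (u b) : R)} * X.I ≤
      (nilradical _).comap (Ideal.Quotient.mk (Module.annihilator R M.M)) := by
    refine Ideal.span_singleton_mul_le_iff.2 fun s hs => ?_
    obtain ⟨k, hk⟩ := nss _ V hV' (r := (∏ b ∈ X.B, (MvPolynomial.X (u b) : R)) * s) fun y hy => by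
      rw [map_mul, mul_eq_zero, or_iff_not_imp_left, map_prod]
      refine fun h0 => hs y (by_contra fun hn => ?_)
      obtain ⟨r, h1, h2⟩ := h.supp y (fun b hb => ⟨u b, hu b hb, by
        simpa using Finset.prod_ne_zero_iff.1 h0 b hb⟩) hn
      exact h1 (hy r (Module.mem_annihilator.2 h2))
    exact ⟨k, by rw [← map_pow]; exact Ideal.Quotient.eq_zero_iff_mem.2 hk⟩
  refine ⟨(∏ b ∈ X.B, (MvPolynomial.X (u b) : R)) ^ n, ?_, fun m hm => ?_⟩
  · rw [map_pow, map_prod]
    exact pow_ne_zero _ (Finset.prod_ne_zero_iff.2 fun b hb => by simpa using hu' b hb)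
  · refine Submodule.smul_induction_on hm (fun s hs m _ => ?_) fun a b ha hb => by
      rw [smul_add, ha, hb, add_zero]
    have h1 := (Ideal.pow_right_mono hle n).trans (Ideal.le_comap_pow _ n)
    rw [hn, mul_pow] at h1
    have h2 := h1 (Ideal.mul_mem_mul (Ideal.pow_mem_pow (Ideal.mem_span_singleton_self _) n) hs)
    rw [smul_smul]
    exact Module.mem_annihilator.1 (Ideal.Quotient.eq_zero_iff_mem.1 h2) m
/-- induction along the `I`-adic filtration -/
lemma GM.On.devissage {P : GM → Prop} (hi : ∀ M : GM, M.On X → M.Irr X → P M)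
    (hs : ∀ N M Q : GM, SES N M Q → M.On X → Q.Red X → P N → P M) {M : GM} (h : M.On X) : P M := by
  obtain ⟨n, hn⟩ := h.exists_pow
  induction n generalizing M with
  | zero => exact hi M h fun x hx => (hn x hx).imp fun r hr => ⟨hr.1, fun m => hr.2 m (by simp)⟩
  | succ n ih =>
    have hN : M.Stab (X.I • ⊤) := stab_top.smul fun _ => X.gam_mem_I
    refine hs _ _ _ (ses_sub_quot hN) h ⟨(h.quot hN).deg, fun r hr m => ?_⟩ (ih (h.sub hN)
      fun x hx => (hn x hx).imp fun r hr => ⟨hr.1, fun m hm => Subtype.ext (hr.2 m.1 ?_)⟩)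
    · obtain ⟨c, rfl⟩ := Submodule.Quotient.mk_surjective _ m
      exact (Submodule.Quotient.mk_eq_zero _).2 (Submodule.smul_mem_smul hr trivial)
    · rw [pow_succ, Submodule.mul_smul]
      exact Submodule.smul_induction_on (p := fun m : (M.sub _ hN).M =>
        m.1 ∈ X.I ^ n • X.I • (⊤ : Submodule R M.M)) hm
        (fun s hs m _ => Submodule.smul_mem_smul hs m.2) fun a b ha hb => add_mem ha hb
lemma G.ind_red {P : G X → Prop} (h0 : P 0) (hcl : ∀ M : GM, M.Red X → P (cl X M))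
    (hneg : ∀ a, P a → P (-a)) (hadd : ∀ a b, P a → P b → P (a + b)) (a : G X) : P a :=
  G.ind h0 (fun _ h => h.devissage (P := fun M => P (cl X M)) (fun _ _ h => cl_irr h ▸ h0)
    fun _ _ Q h hM hQ hN => cl_ses h hM ▸ hadd _ _ hN (hcl Q hQ)) hneg hadd a
lemma G.hom_ext_red {A : Type*} [AddCommGroup A] {φ ψ : G X →+ A}
    (h : ∀ M : GM, M.Red X → φ (cl X M) = ψ (cl X M)) : φ = ψ :=
  AddMonoidHom.ext (G.ind_red (by simp) h (fun a h => by simp [h]) fun a b h h' => by simp [h, h'])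
/-- the `3 × 3` lemma -/
lemma GM.SES.three {N A B C Q : GM} (h : SES N B Q) (h' : SES A B C) :
    ∃ A' A'' C' C'' : GM, SES A' N C' ∧ SES A'' Q C'' ∧ SES A' A A'' ∧ SES C' C C'' := by
  obtain ⟨i, q, hi, hq, i1, i2, i3⟩ := h
  obtain ⟨f, p, hf, hp, f1, f2, f3⟩ := h'
  obtain ⟨l, hl, hl'⟩ := exists_liftInj (Z := A.sub _ (hq.comp hf).stab_ker) hi i1
    (hf.comp (deg0_subtype _)) fun z => (i2 _).1 z.2
  obtain ⟨π, hπ, hπ'⟩ := exists_descSurj (Z := C.quot _ (hp.comp hi).stab_range) hq i3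
    ((deg0_mkQ _).comp hp) fun b hb => by
      obtain ⟨n, rfl⟩ := (i2 b).1 hb
      exact (Submodule.Quotient.mk_eq_zero _).2 ⟨n, rfl⟩
  refine ⟨_, _, _, _, ⟨l, (p ∘ₗ i).rangeRestrict, hl, fun m => Subtype.ext (hp.comp hi m),
    fun a b hab => Subtype.ext (f1 ((hl' a).symm.trans ((congrArg i hab).trans (hl' b)))),
    fun n => ⟨fun hn => ?_, ?_⟩, LinearMap.surjective_rangeRestrict _⟩,
    ⟨Submodule.subtype _, π, deg0_subtype (hq.comp hf).stab_range, hπ, Subtype.val_injective,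
      fun c => ⟨fun hc => ?_, ?_⟩, fun c => ?_⟩, ses_ker_range (hq.comp hf),
    ses_sub_quot (hp.comp hi).stab_range⟩
  · obtain ⟨a, ha⟩ := (f2 _).1 (congrArg Subtype.val hn)
    exact ⟨⟨a, (congrArg q ha).trans (i2.apply_apply_eq_zero n)⟩, i1 ((hl' _).trans ha)⟩
  · rintro ⟨a, rfl⟩
    exact Subtype.ext ((congrArg p (hl' a)).trans (f2.apply_apply_eq_zero _))
  · obtain ⟨b, rfl⟩ := i3 c
    obtain ⟨n, hn⟩ := (Submodule.Quotient.mk_eq_zero _).1 ((hπ' b).symm.trans hc)
    obtain ⟨a, ha⟩ := (f2 (b - i n)).1 (by rw [map_sub, sub_eq_zero]; exact hn.symm)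
    refine ⟨⟨q b, a, ?_⟩, rfl⟩
    rw [LinearMap.comp_apply, ha, map_sub, i2.apply_apply_eq_zero, sub_zero]
  · rintro ⟨⟨_, a, rfl⟩, rfl⟩
    exact (hπ' _).trans ((congrArg (Submodule.mkQ _) (f2.apply_apply_eq_zero a)).trans (map_zero _))
  · obtain ⟨c, rfl⟩ := Submodule.Quotient.mk_surjective _ c
    obtain ⟨b, rfl⟩ := f3 c
    exact ⟨q b, hπ' b⟩
/-- the value of an additive function along a filtration with reduced quotients -/
inductive FVal (X : Spc) {A : Type*} [AddCommGroup A] (φ : GM → A) : GM → A → Prop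
  | irr {M : GM} : M.Irr X → FVal X φ M 0
  | step {N M Q : GM} {a : A} : SES N M Q → Q.Red X → FVal X φ N a → FVal X φ M (a + φ Q)
/-- dévissage: an additive function on reduced modules extends -/
lemma G.exists_liftRed {A : Type*} [AddCommGroup A] (φ : GM → A)
    (hs : ∀ A B C : GM, SES A B C → B.Red X → φ B = φ A + φ C)
    (hi : ∀ A : GM, A.Red X → A.Irr X → φ A = 0) :
    ∃ Φ : G X →+ A, ∀ M : GM, M.Red X → Φ (cl X M) = φ M := by
  have hsplit : ∀ B b, FVal X φ B b → ∀ A C, SES A B C →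
      ∃ a c, FVal X φ A a ∧ FVal X φ C c ∧ b = a + c := by
    intro B b h
    induction h with
    | irr h => exact fun A C h' => ⟨0, 0, .irr (h'.irr_left h), .irr (h'.irr_right h), by simp⟩
    | step h hQ _ ih =>
      intro A C h'
      obtain ⟨A', A'', C', C'', h1, h2, h3, h4⟩ := h.three h'
      obtain ⟨a, c, ha, hc, rfl⟩ := ih _ _ h1
      exact ⟨_, _, .step h3 (h2.red_left hQ) ha, .step h4 (h2.red_right hQ) hc, by
        rw [hs _ _ _ h2 hQ]; abel⟩
  have hred : ∀ M a, FVal X φ M a → M.Red X → a = φ M := by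
    intro M a h
    induction h with
    | irr h => exact fun h' => (hi _ h' h).symm
    | step h _ _ ih => exact fun h' => by rw [ih (h.red_left h'), hs _ _ _ h h']
  have hirr : ∀ M a, FVal X φ M a → M.Irr X → a = 0 := by
    intro M a h
    induction h with
    | irr h => exact fun _ => rfl
    | step h hQ _ ih =>
      exact fun h' => by rw [ih (h.irr_left h'), hi _ hQ (h.irr_right h'), add_zero]
  have huniq : ∀ M a, FVal X φ M a → ∀ b, FVal X φ M b → a = b := by
    intro M a h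
    induction h with
    | irr h => exact fun b hb => (hirr _ _ hb h).symm
    | step h hQ _ ih =>
      intro b hb
      obtain ⟨a, c, ha, hc, rfl⟩ := hsplit _ _ hb _ _ h
      rw [ih a ha, hred _ _ hc hQ]
  have hex : ∀ M : GM, M.On X → ∃ a, FVal X φ M a := fun M h =>
    h.devissage (P := fun M => ∃ a, FVal X φ M a) (fun _ _ h => ⟨0, .irr h⟩)
      fun _ _ _ h _ hQ ⟨_, ha⟩ => ⟨_, .step h hQ ha⟩
  choose! ψ hψ using hex
  obtain ⟨Φ, hΦ⟩ := G.exists_lift (X := X) ψ (fun A B C h hB => by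
    obtain ⟨a, c, ha, hc, e⟩ := hsplit _ _ (hψ B hB) _ _ h
    rw [e, huniq _ _ ha _ (hψ A (h.on_left hB)), huniq _ _ hc _ (hψ C (h.on_right hB))])
    fun A hA h => hirr _ _ (hψ A hA) h
  exact ⟨Φ, fun M hM => (hΦ M hM.on).trans (hred _ _ (hψ M hM.on) hM)⟩

lemma exists_sh (X : Spc) (d : D) : ∃ Φ : G X →+ G X, d ∈ DS X.B →
    ∀ M : GM, M.On X → Φ (cl X M) = cl X (M.shift d) := by
  by_cases hd : d ∈ DS X.B
  · exact (G.exists_lift (fun M => cl X (M.shift d)) (fun A B C h hB => cl_ses (h.shift d)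
      (hB.shift hd)) fun A _ h => cl_irr (h.shift d)).imp fun _ h _ => h
  · exact ⟨0, fun h => absurd h hd⟩
/-- the twist by `O(d)` -/
def sh (X : Spc) (d : D) : G X →+ G X := (exists_sh X d).choose
lemma sh_cl {d : D} (hd : d ∈ DS X.B) {M : GM} (h : M.On X) :
    sh X d (cl X M) = cl X (M.shift d) := (exists_sh X d).choose_spec hd M h
lemma cl_shift_zero (M : GM) : cl X (M.shift 0) = cl X M :=
  cl_iso (A := M.shift 0) (B := M) (LinearEquiv.refl R M.M) fun m => by
    change (C (chi (-0)) : R) • M.g m = M.g m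
    simp
lemma cl_shift_add (M : GM) (d e : D) : cl X (M.shift (d + e)) = cl X ((M.shift e).shift d) :=
  cl_iso (A := M.shift (d + e)) (B := (M.shift e).shift d) (LinearEquiv.refl R M.M) fun m => by
    change (C (chi (-(d + e))) : R) • M.g m = (C (chi (-d)) : R) • (C (chi (-e)) : R) • M.g m
    rw [neg_add, chi_add, map_mul, mul_smul]
lemma sh_zero (a : G X) : sh X 0 a = a :=
  DFunLike.congr_fun (G.hom_ext (φ := sh X 0) (ψ := AddMonoidHom.id _) fun M h =>
    (sh_cl (zero_mem _) h).trans (cl_shift_zero M)) a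
lemma sh_add {d e : D} (hd : d ∈ DS X.B) (he : e ∈ DS X.B) (a : G X) :
    sh X (d + e) a = sh X d (sh X e a) :=
  DFunLike.congr_fun (G.hom_ext (φ := sh X (d + e)) (ψ := (sh X d).comp (sh X e)) fun M h => by
    rw [AddMonoidHom.comp_apply, sh_cl (add_mem hd he) h, sh_cl he h, sh_cl hd (h.shift he),
      cl_shift_add]) a

lemma exists_incl (Z X : Spc) : ∃ Φ : G Z →+ G X, Z.Sub X →
    ∀ M : GM, M.On Z → Φ (cl Z M) = cl X M := by
  by_cases hZ : Z.Sub X
  · exact (G.exists_lift (cl X) (fun A B C h hB => cl_ses h (hB.mono hZ))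
      fun A hA h => cl_irr (h.mono hZ hA)).imp fun _ h _ => h
  · exact ⟨0, fun h => absurd h hZ⟩
/-- push-forward along a closed embedding -/
def incl (Z X : Spc) : G Z →+ G X := (exists_incl Z X).choose
lemma incl_cl {Z : Spc} (hZ : Z.Sub X) {M : GM} (h : M.On Z) : incl Z X (cl Z M) = cl X M :=
  (exists_incl Z X).choose_spec hZ M h
lemma incl_sh {Z : Spc} (hZ : Z.Sub X) {d : D} (hd : d ∈ DS X.B) (a : G Z) :
    incl Z X (sh Z d a) = sh X d (incl Z X a) :=
  DFunLike.congr_fun (G.hom_ext (φ := (incl Z X).comp (sh Z d)) (ψ := (sh X d).comp (incl Z X))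
    fun M h => by
      have hd' : d ∈ DS Z.B := hZ.1 ▸ hd
      rw [AddMonoidHom.comp_apply, AddMonoidHom.comp_apply, sh_cl hd' h, incl_cl hZ h,
        incl_cl hZ (h.shift hd'), sh_cl hd (h.mono hZ)]) a
lemma incl_incl {Z Y : Spc} (h : Z.Sub Y) (h' : Y.Sub X) (a : G Z) :
    incl Y X (incl Z Y a) = incl Z X a :=
  DFunLike.congr_fun (G.hom_ext (φ := (incl Y X).comp (incl Z Y)) (ψ := incl Z X) fun M hM => by
    rw [AddMonoidHom.comp_apply, incl_cl h hM, incl_cl h' (hM.mono h),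
      incl_cl ⟨h.1.trans h'.1, h.2.trans h'.2⟩ hM]) a
/-- the class of the structure sheaf -/
def one (X : Spc) : G X := cl X (O X)
lemma G.subsingleton_of_empty (h : X.pts = ∅) : Subsingleton (G X) :=
  subsingleton_of_forall_eq 0 (G.ind rfl (fun _ _ => cl_irr fun x hx => by simp [h] at hx)
    (fun a h => by rw [h, neg_zero]) fun a b h h' => by rw [h, h', add_zero])

end Crest.Agent.N265
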