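import Crest.Agent.N265.G.Dev0

/-! # Task G4 (part 2): the point; weight decomposition
(`G.dev`, `G.dev_ind`, `G.cover`, `one_disjoint`, `sh_sub_mem`, `GM.Red.exists_generic` are in `G/Dev0`) -/

set_option autoImplicit false
noncomputable section
open MvPolynomial

namespace Crest.Agent.N265
open GM
variable {X : Spc}

theorem Spc.IsPt.sh_block {P : Spc} {w : ℕ → ℤ} (h : P.IsPt w) {b : ℕ} (hb : b ∈ P.B) (a : G P) :
    sh P (eB b + w b • eT) a = a := by
  obtain ⟨hw, x, hx, hP⟩ := h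
  obtain ⟨v, rfl, hv⟩ := P.rel x hx b hb
  have hdeg : eB v.1 + w v.1 • eT = vdeg v := by rw [vdeg, hw x hx v hv]
  have hd : vdeg v ∈ DS P.B := vdeg_mem hb
  have : sh P (vdeg v) = AddMonoidHom.id _ := G.hom_ext fun M hM => by
    have h0 : cl P (M.shift 0) = cl P M := by rw [← sh_cl (zero_mem _) hM, sh_zero]
    rw [sh_cl hd hM, AddMonoidHom.id_apply, ← h0, ← zero_add (vdeg v)]
    refine (cl_locIso _ (deg0_dvMul M (Hmg.X v) 0) (hM.shift (zero_mem _))
      (hM.shift (by rwa [zero_add])) fun y hy => ⟨MvPolynomial.X v, ?_, fun _ h => h,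
        fun m => ⟨m, rfl⟩⟩).symm
    obtain ⟨c, hc⟩ := hP y hy
    obtain ⟨u, hu, hu0⟩ := P.rel y hy _ hb
    rw [hc, hu] at hu0
    rw [eval_X, hc]
    exact mul_ne_zero (left_ne_zero_of_mul hu0) hv
  rw [hdeg, this]; rfl

lemma Spc.IsPt.dv_eq_of_sub {P Z : Spc} {w : ℕ → ℤ} (h : P.IsPt w) (hZ : Z.Sub P)
    (hn : Z.pts.Nonempty) : Z = P := by
  classical
  obtain ⟨-, x, hx, hP⟩ := h
  obtain ⟨z, hz⟩ := hn
  refine Spc.ext hZ.1 (hZ.2.antisymm fun y hy => ?_)
  have key : ∀ y ∈ P.pts, ∃ c : ℕ → ℂˣ, ∀ v, y v = c v.1 * x v := fun y hy => by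
    obtain ⟨c, hc⟩ := hP y hy
    refine ⟨fun b => if h : c b = 0 then 1 else Units.mk0 _ h, fun v => ?_⟩
    by_cases h0 : c v.1 = 0
    · by_cases hv : v.1 ∈ P.B
      · obtain ⟨u, hu, hu0⟩ := P.rel y hy _ hv
        rw [hc, hu, h0, zero_mul] at hu0
        exact absurd rfl hu0
      · have : x v = 0 := by rw [← P.restr_eq hx]; simp [restr, hv]
        rw [hc, this, mul_zero, mul_zero]
    · simp [h0, hc]
  obtain ⟨a, ha⟩ := key y hy
  obtain ⟨b, hb⟩ := key z (hZ.2 hz)
  obtain ⟨c, hc⟩ := exists_tor fun i => i.elim 1 fun n => a n * (b n)⁻¹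
  convert Z.tpt_mem c hz using 1
  funext v
  have : c (Multiplicative.ofAdd (vdeg v)) = a v.1 * (b v.1)⁻¹ := by
    rw [vdeg, ofAdd_add, map_mul, ofAdd_zsmul, map_zpow, eB, eT, hc, hc]; simp
  rw [tpt, this, ha, hb]; simp [mul_assoc]

lemma dv_sh_zsmul {d : D} (hd : d ∈ DS X.B) (h : ∀ a, sh X d a = a) (n : ℤ) (a : G X) :
    sh X (n • d) a = a := by
  induction n using Int.induction_on with
  | zero => rw [zero_smul, sh_zero]
  | succ n ih => rw [add_smul, one_smul, add_comm, sh_add hd (zsmul_mem hd _), h, ih]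
  | pred n ih =>
    rw [← h (sh X _ a), ← sh_add hd (zsmul_mem hd _), sub_smul, one_smul, add_sub_cancel, ih]

lemma Spc.IsPt.dv_exists_sh {P : Spc} {w : ℕ → ℤ} (h : P.IsPt w) {d : D} (hd : d ∈ DS P.B) :
    ∃ k : ℤ, ∀ a, sh P d a = sh P (k • eT) a := by
  have key : ∀ s : Finset ℕ, s ⊆ P.B → ∀ a,
      sh P (∑ b ∈ s, d (some b) • (eB b + w b • eT)) a = a := by
    intro s
    induction s using Finset.induction_on with
    | empty => intro _ a; rw [Finset.sum_empty, sh_zero]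
    | insert b s hb ih =>
      intro hs a
      have hm : ∀ b ∈ P.B, eB b + w b • eT ∈ DS P.B := fun b hb =>
        add_mem (eB_mem hb) (zsmul_mem (eT_mem _) _)
      have hb' := hs (Finset.mem_insert_self b s)
      have hs' := (Finset.subset_insert b s).trans hs
      rw [Finset.sum_insert hb, sh_add (zsmul_mem (hm b hb') _)
        (sum_mem fun c hc => zsmul_mem (hm c (hs' hc)) _), ih hs',
        dv_sh_zsmul (hm b hb') (h.sh_block hb')]
  refine ⟨d none - ∑ b ∈ P.B, d (some b) * w b, fun a => ?_⟩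
  have e : d = (d none - ∑ b ∈ P.B, d (some b) * w b) • eT
      + ∑ b ∈ P.B, d (some b) • (eB b + w b • eT) := by
    ext i
    cases i with
    | none => simp [eB, eT]
    | some c =>
      simp only [eB, eT, Finsupp.finsetSum_apply, Finsupp.add_apply, Finsupp.smul_apply,
        Finsupp.single_apply, Option.some.injEq, reduceCtorEq, if_false, add_zero,
        zero_add, smul_eq_mul, mul_ite, mul_one, mul_zero, Finset.sum_ite_eq']
      split_ifs with hc
      · rfl
      · exact hd c hc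
  conv_lhs => rw [e]
  rw [sh_add (zsmul_mem (eT_mem _) _) (sum_mem fun b hb =>
    zsmul_mem (add_mem (eB_mem hb) (zsmul_mem (eT_mem _) _)) _), key _ subset_rfl]

/-- on a point every class is a combination of `t^k [O]` -/
theorem Spc.IsPt.span {P : Spc} {w : ℕ → ℤ} (h : P.IsPt w) :
    AddSubgroup.closure {a | ∃ k : ℤ, a = sh P (k • eT) (one P)} = ⊤ := by
  refine G.dev _ fun Z hZ hi d hd => ?_
  obtain rfl := h.dv_eq_of_sub hZ hi.nonempty
  obtain ⟨k, hk⟩ := h.dv_exists_sh hd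
  exact AddSubgroup.subset_closure ⟨k, by rw [← hk, one, sh_cl hd (red_O _).on]⟩

/-! ### the point -/

lemma Spc.dv_pt0_isPt : Spc.pt0.IsPt 0 := by
  refine ⟨fun x hx v hv => ?_, 0, by simp [Spc.pt0_pts], fun y hy => ⟨0, fun v => ?_⟩⟩
  · rw [Spc.pt0_pts] at hx; simp [Set.mem_singleton_iff.1 hx] at hv
  · rw [Spc.pt0_pts] at hy; simp [Set.mem_singleton_iff.1 hy]

lemma GM.DegIn.dv_smul {M : GM} (h : M.DegIn ∅) (r : R) (m : M.M) :
    r • m = (eval 0 r : ℂ) • m := by
  induction r using MvPolynomial.induction_on generalizing m with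
  | C c => rw [eval_C]; rfl
  | add p q hp hq => rw [add_smul, map_add, add_smul, hp, hq]
  | mul_X p v hp => rw [mul_smul, h.X_smul (by simp), smul_zero]; simp

lemma GM.DegIn.dv_finite {M : GM} (h : M.DegIn ∅) : Module.Finite ℂ M.M := by
  obtain ⟨s, hs⟩ := (IsNoetherian.noetherian (⊤ : Submodule R M.M))
  refine ⟨s, eq_top_iff.2 fun m _ => ?_⟩
  have hm : m ∈ Submodule.span R (s : Set M.M) := hs ▸ Submodule.mem_top
  induction hm using Submodule.span_induction with
  | mem _ h => exact Submodule.subset_span h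
  | zero => exact zero_mem _
  | add a b _ _ ha hb => exact add_mem (ha trivial) (hb trivial)
  | smul r a _ ha => rw [h.dv_smul]; exact Submodule.smul_mem _ _ (ha trivial)

/-- a degree zero map on homogeneous pieces -/
def GM.Deg0.dvGr {A B : GM} {f : A.M →ₗ[R] B.M} (hf : Deg0 f) (d : D) : A.gr d →ₗ[ℂ] B.gr d :=
  (f.restrictScalars ℂ).restrict fun _ hm => hf.map_gr hm

lemma GM.SES.dv_finrank_gr {A B C : GM} (h : SES A B C) [Module.Finite ℂ B.M] (d : D) :
    Module.finrank ℂ (B.gr d) = Module.finrank ℂ (A.gr d) + Module.finrank ℂ (C.gr d) := by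
  obtain ⟨f, p, hf, hp, hi, he, hs⟩ := h
  have h1 : Function.Injective (hf.dvGr d) := fun a b hab =>
    Subtype.ext (hi (congrArg Subtype.val hab))
  have h2 : LinearMap.range (hp.dvGr d) = ⊤ := eq_top_iff.2 fun c _ => by
    obtain ⟨b, hb⟩ := hs c.1
    refine ⟨⟨B.cp d b, B.cp_mem d b⟩, Subtype.ext ?_⟩
    change p (B.cp d b) = c.1
    rw [hp.map_cp, hb, C.cp_of_mem c.2]
  have h3 : LinearMap.ker (hp.dvGr d) = LinearMap.range (hf.dvGr d) := by
    ext b
    constructor
    · intro hb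
      obtain ⟨a, ha⟩ := (he b.1).1 (congrArg Subtype.val hb)
      refine ⟨⟨A.cp d a, A.cp_mem d a⟩, Subtype.ext ?_⟩
      change f (A.cp d a) = b.1
      rw [hf.map_cp, ha, B.cp_of_mem b.2]
    · rintro ⟨a, rfl⟩
      exact Subtype.ext ((he _).2 ⟨a.1, rfl⟩)
  rw [← (hp.dvGr d).finrank_range_add_finrank_ker, h2, h3, finrank_top,
    LinearMap.finrank_range_of_inj h1, add_comm]

lemma GM.DegIn.dv_finite_supp {M : GM} (h : M.DegIn ∅) :
    (Function.support fun k : ℤ => (Module.finrank ℂ (M.gr (-(k • eT))) : ℤ)).Finite := by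
  have := h.dv_finite
  have hf := WellFoundedGT.finite_ne_bot_of_iSupIndep M.gr_indep
  refine (hf.preimage (f := fun k : ℤ => -(k • eT)) fun a _ b _ hab => ?_).subset fun k hk h0 => ?_
  · simpa [eT] using congrArg (fun d : D => d none) hab
  · exact hk (by beta_reduce at h0 ⊢; rw [h0]; simp)

lemma dv_O_pt0_gr (d : D) : Module.finrank ℂ ((O Spc.pt0).gr d) = if d = 0 then 1 else 0 := by
  have hD : (O Spc.pt0).DegIn ∅ := (red_O Spc.pt0).deg
  let u : (O Spc.pt0).M := Ideal.Quotient.mk _ 1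
  have hu : u ∈ (O Spc.pt0).gr 0 := (Oid_gr _ _).2 ⟨1, Hmg.one, rfl⟩
  have hu0 : u ≠ 0 := fun h => by
    have := Ideal.Quotient.eq_zero_iff_mem.1 h 0 (by simp [Spc.pt0_pts])
    simp at this
  have hall : ∀ m : (O Spc.pt0).M, m ∈ Submodule.span ℂ {u} := fun m => by
    obtain ⟨r, rfl⟩ := Ideal.Quotient.mk_surjective (I := Spc.pt0.I) m
    refine Submodule.mem_span_singleton.2 ⟨eval 0 r, ?_⟩
    rw [← hD.dv_smul]
    exact congrArg (Ideal.Quotient.mk _) (mul_one r)
  have hle : Submodule.span ℂ {u} ≤ (O Spc.pt0).gr 0 := (Submodule.span_singleton_le_iff_mem _ _).2 hu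
  split_ifs with hd
  · rw [hd, ← hle.antisymm fun m _ => hall m, finrank_span_singleton hu0]
  · have : (O Spc.pt0).gr d = ⊥ := eq_bot_iff.2 fun m hm => by
      rw [Submodule.mem_bot, ← GM.cp_of_mem _ hm]
      exact GM.cp_of_mem_ne _ (hle (hall m)) hd
    rw [this, finrank_bot]

/-- the character of a finite-dimensional `T`-representation -/
theorem exists_chiT : ∃ Φ : G Spc.pt0 ≃+ LaurentPolynomial ℤ,
    ∀ k : ℤ, Φ (sh _ (k • eT) (one _)) = LaurentPolynomial.T k := by
  classical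
  let φ : GM → (ℤ →₀ ℤ) := fun M =>
    if h : M.DegIn ∅ then Finsupp.ofSupportFinite _ h.dv_finite_supp else 0
  have hφ : ∀ M : GM, M.DegIn ∅ → ∀ k, φ M k = Module.finrank ℂ (M.gr (-(k • eT))) := by
    intro M h k; simp only [φ, dif_pos h]; rfl
  obtain ⟨Φ, hΦ⟩ := G.exists_lift (X := Spc.pt0) φ (fun A B C h hB => by
    have hB' : B.DegIn ∅ := hB.deg
    have := hB'.dv_finite
    have ⟨f, p, hf, hp, hi, _, hs⟩ := h
    ext k
    rw [Finsupp.add_apply, hφ B hB', hφ A (hB'.of_inj hf hi), hφ C (hB'.of_surj hp hs),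
      h.dv_finrank_gr, Nat.cast_add]) (fun A hA hi => by
    have hA' : A.DegIn ∅ := hA.deg
    obtain ⟨r, hr, h0⟩ := hi 0 (by simp [Spc.pt0_pts])
    ext k
    have : A.gr (-(k • eT)) = ⊥ := eq_bot_iff.2 fun m _ => by
      have := h0 m
      rw [hA'.dv_smul] at this
      exact (smul_eq_zero.1 this).resolve_left hr
    rw [hφ A hA', this]; simp)
  have h1 : ∀ k : ℤ, Φ (sh _ (k • eT) (one _)) = Finsupp.single k 1 := fun k => by
    have hk : k • eT ∈ DS Spc.pt0.B := zsmul_mem (eT_mem _) _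
    have ho := (red_O Spc.pt0).on.shift hk
    rw [one, sh_cl hk (red_O _).on, hΦ _ ho]
    ext j
    rw [hφ _ ho.deg, shift_gr]
    erw [dv_O_pt0_gr]
    rw [Finsupp.single_apply]
    have : -(j • eT) + k • eT = 0 ↔ k = j := by
      rw [neg_add_eq_zero]
      exact ⟨fun h => by simpa [eT] using (congrArg (fun d : D => d none) h).symm,
        fun h => by rw [h]⟩
    simp [this]
  let Ψ : (ℤ →₀ ℤ) →+ G Spc.pt0 :=
    Finsupp.liftAddHom fun k => zmultiplesHom _ (sh _ (k • eT) (one _))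
  have h2 : ∀ k : ℤ, Ψ (Finsupp.single k 1) = sh _ (k • eT) (one _) := fun k => by simp [Ψ]
  have h3 : Φ.comp Ψ = AddMonoidHom.id _ := by
    ext k : 2
    simp [h1, h2]
  have h4 : ∀ a, Ψ (Φ a) = a := fun a => by
    have ha : a ∈ AddSubgroup.closure {a | ∃ k : ℤ, a = sh _ (k • eT) (one Spc.pt0)} :=
      Spc.dv_pt0_isPt.span ▸ AddSubgroup.mem_top a
    induction ha using AddSubgroup.closure_induction with
    | mem _ h => obtain ⟨k, rfl⟩ := h; rw [h1, h2]
    | zero => simp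
    | add a b _ _ ha hb => rw [map_add, map_add, ha, hb]
    | neg a _ ha => rw [map_neg, map_neg, ha]
  refine ⟨(AddMonoidHom.toAddEquiv Φ Ψ (AddMonoidHom.ext h4) h3).trans
    AddMonoidAlgebra.coeffAddEquiv.symm, fun k => ?_⟩
  change AddMonoidAlgebra.ofCoeff (Φ _) = _
  rw [h1]; rfl
/-- `G(pt) = ℤ[t^±]`, `t = O(eT)` -/
def chiT : G Spc.pt0 ≃+ LaurentPolynomial ℤ := exists_chiT.choose
lemma chiT_one (k : ℤ) : chiT (sh _ (k • eT) (one _)) = LaurentPolynomial.T k :=
  exists_chiT.choose_spec k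

/-! ### weight decomposition -/

/-- the submodule generated by the elements of `T`-weight `k` -/
def GM.wtSub (M : GM) (k : ℤ) : Submodule R M.M :=
  Submodule.span R {m | ∃ d : D, d none = k ∧ m ∈ M.gr d}
lemma GM.stab_wtSub (M : GM) (k : ℤ) : M.Stab (M.wtSub k) :=
  stab_span fun _ ⟨d, _, h⟩ => ⟨d, h⟩
lemma GM.mem_wtSub_of {M : GM} {k : ℤ} {m : M.M} (h : ∀ d : D, d none ≠ k → M.cp d m = 0) :
    m ∈ M.wtSub k := by
  obtain ⟨s, hs, -⟩ := M.exists_sum_cp m
  rw [← hs]
  refine sum_mem fun d _ => ?_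
  by_cases hd : d none = k
  · exact Submodule.subset_span ⟨d, hd, M.cp_mem d m⟩
  · rw [h d hd]; exact zero_mem _

/-- on a `T`-trivial space the weights of the components are preserved by `R` -/
lemma GM.Red.cp_span (hX : X.TTriv 0) {M : GM} (hM : M.Red X) (S : Set ℤ) {m : M.M}
    (hm : m ∈ Submodule.span R {m | ∃ d : D, d none ∈ S ∧ m ∈ M.gr d}) :
    ∀ d : D, d none ∉ S → M.cp d m = 0 := by
  induction hm using Submodule.span_induction with
  | mem m h =>
    obtain ⟨e, he, h⟩ := h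
    exact fun d hd => M.cp_of_mem_ne h fun h' => hd (h' ▸ he)
  | zero => simp
  | add a b _ _ ha hb => intro d hd; rw [map_add, ha d hd, hb d hd, add_zero]
  | smul r a h ha =>
    clear h
    induction r using MvPolynomial.induction_on generalizing a with
    | C c => intro d hd; rw [← c_smul, map_smul, ha d hd, smul_zero]
    | add p q hp hq => intro d hd; rw [add_smul, map_add, hp a ha d hd, hq a ha d hd, add_zero]
    | mul_X p v hp =>
      rw [mul_smul]
      refine hp _ fun d hd => ?_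
      by_cases hv : v.2.2 = 0
      · rw [← add_sub_cancel (vdeg v) d, M.cp_smul (Hmg.X v), ha, smul_zero]
        simpa [vdeg, eB, hv] using hd
      · rw [hM.ann, map_zero]
        intro x hx
        by_contra h0
        exact hv (hX x hx v (by simpa using h0))

/-- the weight `k` part, moved to weight zero -/
def GM.wtPart (M : GM) (k : ℤ) : GM := (M.sub _ (M.stab_wtSub k)).shift (k • eT)

lemma GM.SES.wtPart (hX : X.TTriv 0) {A B C : GM} (h : SES A B C) (hB : B.Red X) (k : ℤ) :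
    SES (A.wtPart k) (B.wtPart k) (C.wtPart k) := by
  obtain ⟨f, p, hf, hp, hi, he, hs⟩ := h
  have hmap : ∀ {M N : GM} {φ : M.M →ₗ[R] N.M}, Deg0 φ → ∀ m ∈ M.wtSub k, φ m ∈ N.wtSub k := by
    intro M N φ hφ
    change M.wtSub k ≤ (N.wtSub k).comap φ
    refine Submodule.span_le.2 ?_
    rintro m ⟨d, hd, hm⟩
    exact Submodule.subset_span ⟨d, hd, hφ.map_gr hm⟩
  refine SES.shift (A := A.sub _ (A.stab_wtSub k)) (B := B.sub _ (B.stab_wtSub k))
    (C := C.sub _ (C.stab_wtSub k))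
    ⟨f.restrict (hmap hf), p.restrict (hmap hp), fun m => Subtype.ext (hf m.1),
    fun m => Subtype.ext (hp m.1), fun a b hab => Subtype.ext (hi (congrArg Subtype.val hab)),
    fun b => ⟨fun hb => ?_, ?_⟩, fun c => ?_⟩ _
  · obtain ⟨a, ha⟩ := (he b.1).1 (congrArg Subtype.val hb)
    refine ⟨⟨a, mem_wtSub_of fun d hd => hi ?_⟩, Subtype.ext ha⟩
    rw [hf.map_cp, ha, map_zero]
    exact hB.cp_span hX {k} b.2 d hd
  · rintro ⟨a, rfl⟩
    exact Subtype.ext ((he _).2 ⟨a.1, rfl⟩)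
  · have : C.wtSub k ≤ (B.wtSub k).map p := by
      refine Submodule.span_le.2 ?_
      rintro m ⟨d, hd, hm⟩
      obtain ⟨b, rfl⟩ := hs m
      exact ⟨B.cp d b, Submodule.subset_span ⟨d, hd, B.cp_mem d b⟩, by
        rw [hp.map_cp, C.cp_of_mem hm]⟩
    obtain ⟨b, hb, hc⟩ := this c.2
    exact ⟨⟨b, hb⟩, Subtype.ext hc⟩

lemma cl_wtPart_eq_zero {M : GM} {k : ℤ} (h : ∀ d : D, d none = k → M.gr d = ⊥) :
    cl X (M.wtPart k) = 0 := by
  refine cl_irr fun x _ => ⟨1, by simp, fun m => ?_⟩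
  have : M.wtSub k ≤ ⊥ := Submodule.span_le.2 (by
    rintro m ⟨d, hd, hm⟩
    rw [h d hd] at hm
    exact hm)
  rw [one_smul]
  exact Subtype.ext (this m.2)

lemma GM.wtSub_shift (M : GM) (k j : ℤ) : (M.shift (j • eT)).wtSub k = M.wtSub (k + j) := by
  refine congrArg (Submodule.span R) (Set.ext fun m => ⟨?_, ?_⟩)
  · rintro ⟨d, hd, hm⟩
    rw [shift_gr] at hm
    exact ⟨_, by simp [eT, hd], hm⟩
  · rintro ⟨d, hd, hm⟩
    refine ⟨d - j • eT, by simp [eT, hd], ?_⟩
    rw [shift_gr, sub_add_cancel]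
    exact hm

lemma cl_wtPart_shift (M : GM) (k j : ℤ) :
    cl X ((M.shift (j • eT)).wtPart k) = cl X (M.wtPart (k + j)) := by
  refine cl_iso (A := (M.shift (j • eT)).wtPart k) (B := M.wtPart (k + j))
    (LinearEquiv.ofEq _ _ (M.wtSub_shift k j)) fun m => Subtype.ext ?_
  change (C (chi (-(k • eT))) : R) • (C (chi (-(j • eT))) : R) • M.g m.1
    = (C (chi (-((k + j) • eT))) : R) • M.g m.1
  rw [← mul_smul, ← map_mul, ← chi_add, add_smul, neg_add]

lemma cl_wtPart_zero {M : GM} (h : ∀ d : D, d none ≠ 0 → M.gr d = ⊥) :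
    cl X (M.wtPart 0) = cl X M := by
  have : M.wtSub 0 = ⊤ := eq_top_iff.2 fun m _ => mem_wtSub_of fun d hd => by
    have := M.cp_mem d m
    rwa [h d hd] at this
  refine cl_iso (A := M.wtPart 0) (B := M) (LinearEquiv.ofTop _ this) fun m => ?_
  change (C (chi (-((0 : ℤ) • eT))) : R) • M.g m.1 = M.g m.1
  simp

/-- induction along the `I`-adic filtration -/
lemma GM.On.dv_ind_red {Q : GM → Prop} {P : G X → Prop}
    (hsub : ∀ (M : GM) N (hN : M.Stab N), Q M → Q (M.sub N hN) ∧ Q (M.quot N hN))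
    (h0 : P 0) (hadd : ∀ a b, P a → P b → P (a + b))
    (hred : ∀ M : GM, M.Red X → Q M → P (cl X M)) {M : GM} (hM : M.On X) (hQ : Q M) :
    P (cl X M) := by
  obtain ⟨n, hn⟩ := hM.exists_pow
  induction n generalizing M with
  | zero =>
    rw [cl_irr fun x hx => (hn x hx).imp fun r hr => ⟨hr.1, fun m => hr.2 m (by simp)⟩]
    exact h0
  | succ n ih =>
    have hst : M.Stab (X.I • ⊤) := stab_top.smul fun _ => X.gam_mem_I
    rw [cl_ses (ses_sub_quot hst) hM]
    refine hadd _ _ (ih (hM.sub hst) (hsub M _ hst hQ).1 fun x hx => (hn x hx).imp fun r hr =>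
      ⟨hr.1, fun m hm => Subtype.ext (hr.2 m.1 ?_)⟩)
      (hred _ ⟨(hM.quot hst).deg, fun r hr q => ?_⟩ (hsub M _ hst hQ).2)
    · induction q using Submodule.Quotient.induction_on with | _ m => ?_
      exact (Submodule.Quotient.mk_eq_zero _).2 (Submodule.smul_mem_smul hr Submodule.mem_top)
    · rw [pow_succ, Submodule.mul_smul]
      exact (Submodule.mem_smul_top_iff _ _ m).1 hm

/-- On a space whose variables all have weight zero an additive function of modules splits into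
its `T`-weight components: `Φ k (t^j a) = Φ (k + j) a`, and only finitely many are non-zero. -/
theorem G.exists_wt (hX : X.TTriv 0) : ∃ π : ℤ → G X →+ G X,
    (∀ k j a, π k (sh X (j • eT) a) = π (k + j) a) ∧ (∀ a, {k | π k a ≠ 0}.Finite) ∧
    (∀ M : GM, M.On X → (∀ d : D, d none ≠ 0 → M.gr d = ⊥) →
      π 0 (cl X M) = cl X M ∧ ∀ k, k ≠ 0 → π k (cl X M) = 0) := by
  have hk : ∀ k : ℤ, k • eT ∈ DS X.B := fun k => zsmul_mem (eT_mem _) _
  choose π hπ using fun k : ℤ => G.exists_liftRed (X := X) (fun M => cl X (M.wtPart k))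
    (fun A B C h hB => cl_ses (h.wtPart hX hB k) ((hB.sub _).shift (hk k)).on)
    (fun A _ hi => cl_irr fun x hx => (hi x hx).imp fun r hr =>
      ⟨hr.1, fun m => Subtype.ext (hr.2 m.1)⟩)
  refine ⟨π, fun k j a => ?_, fun a => ?_, fun M hM hw => ?_⟩
  · have : (π k).comp (sh X (j • eT)) = π (k + j) := G.hom_ext_red fun M hM => by
      rw [AddMonoidHom.comp_apply, sh_cl (hk j) hM.on, hπ _ _ (hM.shift (hk j)), hπ _ _ hM,
        cl_wtPart_shift]
    exact DFunLike.congr_fun this a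
  · induction a using G.ind_red with
    | h0 => simp
    | hneg a ha => simpa using ha
    | hadd a b ha hb =>
      refine (ha.union hb).subset fun k hk => ?_
      by_contra h
      simp only [Set.mem_union, Set.mem_ofPred_eq, not_or, not_not] at h
      exact hk (by rw [map_add, h.1, h.2, add_zero])
    | hcl M hM =>
      obtain ⟨N, d, m, hd, -, hsp⟩ := (stab_top (M := M)).exists_gens
      refine (Set.finite_range fun i => d i none).subset fun k hk => ?_
      by_contra h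
      refine hk ?_
      rw [hπ _ _ hM]
      refine cl_wtPart_eq_zero fun e he => eq_bot_iff.2 fun x hx => ?_
      rw [Submodule.mem_bot, ← M.cp_of_mem hx]
      refine hM.cp_span hX (Set.range fun i => d i none) (Submodule.span_mono ?_
        (hsp ▸ Submodule.mem_top : x ∈ Submodule.span R (Set.range m))) e (he ▸ h)
      rintro _ ⟨i, rfl⟩
      exact ⟨d i, ⟨i, rfl⟩, hd i⟩
  · refine GM.On.dv_ind_red (Q := fun M => ∀ d : D, d none ≠ 0 → M.gr d = ⊥)
      (P := fun a => π 0 a = a ∧ ∀ k, k ≠ 0 → π k a = 0) ?_ (by simp) ?_ ?_ hM hw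
    · intro M N hN h
      refine ⟨fun d hd => eq_bot_iff.2 fun m hm => ?_, fun d hd => eq_bot_iff.2 fun q hq => ?_⟩
      · have := (sub_gr hN).1 hm
        rw [h d hd] at this
        exact Subtype.ext this
      · obtain ⟨m, hm, rfl⟩ := (quot_gr hN).1 hq
        rw [h d hd] at hm
        rw [(Submodule.mem_bot _).1 hm]
        exact zero_mem _
    · rintro a b ⟨ha, ha'⟩ ⟨hb, hb'⟩
      exact ⟨by rw [map_add, ha, hb], fun k hk => by rw [map_add, ha' k hk, hb' k hk, add_zero]⟩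
    · intro M hM h
      exact ⟨by rw [hπ _ _ hM, cl_wtPart_zero h], fun k hk => by
        rw [hπ _ _ hM, cl_wtPart_eq_zero fun d hd => h d (hd ▸ hk)]⟩

end Crest.Agent.N265
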