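import Crest.Agent.N265.G.Basic
import Crest.Agent.N265.Sp.Basic

/-! # Task G4 (part 1): dévissage to structure sheaves of irreducible subspaces -/

set_option autoImplicit false
noncomputable section
open MvPolynomial

namespace Crest.Agent.N265
open GM
variable {X : Spc}

/-- a homogeneous function that does not vanish on `X` has its degree in the blocks of `X` -/
lemma Hmg.dv_mem_DS {e : D} {f : R} (hf : Hmg e f) (hn : f ∉ X.I) : e ∈ DS X.B := by
  by_contra he
  refine hn fun x hx => ?_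
  rw [← X.restr_eq hx, ← eval_kill, hf.kill_eq_zero he, map_zero]

lemma GM.DegIn.dv_mem {M : GM} {B : Finset ℕ} (h : M.DegIn B) {d : D} {m : M.M}
    (hm : m ∈ M.gr d) (h0 : m ≠ 0) : d ∈ DS B := by
  by_contra hd
  rw [h d hd] at hm
  exact h0 hm

/-- a module over `X` killed by a homogeneous `f` is supported on the zero set of `f` -/
lemma GM.Red.dv_on_cut {M : GM} (hM : M.Red X) {e : D} {f : R} (hf : Hmg e f)
    (h : ∀ m : M.M, f • m = 0) : M.On (X.cut {f} (by rintro r rfl; exact ⟨_, hf⟩)) := by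
  refine ⟨hM.deg, fun x hx hn => ?_⟩
  by_cases hX : x ∈ X.pts
  · refine ⟨f, fun h0 => hn ⟨hX, ?_⟩, h⟩
    rintro r rfl; exact h0
  · exact hM.on.supp x hx hX

lemma Spc.dv_cut_ne {e : D} {f : R} (hf : Hmg e f) (hn : f ∉ X.I) :
    (X.cut {f} (by rintro r rfl; exact ⟨_, hf⟩)).pts ≠ X.pts := fun h =>
  hn fun x hx => by
    rw [← h] at hx
    exact hx.2 f rfl

/-- the short exact sequence of an injective map -/
lemma dv_ses_of_inj {A B : GM} (φ : A.M →ₗ[R] B.M) (h0 : Deg0 φ) (hi : Function.Injective φ) :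
    SES A B (B.quot _ h0.stab_range) :=
  ⟨φ, (LinearMap.range φ).mkQ, h0, deg0_mkQ h0.stab_range, hi, LinearMap.exact_map_mkQ_range φ,
    Submodule.mkQ_surjective _⟩

/-- `R ⧸ I → M`, `1 ↦ m` -/
def dvSpan {M : GM} (hM : M.Red X) (m : M.M) : (O X).M →ₗ[R] M.M :=
  Submodule.liftQ X.I (LinearMap.toSpanSingleton R M.M m) fun r hr => hM.ann r hr m
lemma dvSpan_mk {M : GM} (hM : M.Red X) (m : M.M) (r : R) :
    dvSpan hM m (Ideal.Quotient.mk X.I r) = r • m := rfl

/-- generic rank: on an irreducible space every module is generically free -/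
theorem GM.Red.exists_generic (hX : X.Irred) {M : GM} (hM : M.Red X) :
    ∃ (n : ℕ) (deg : Fin n → D) (_ : ∀ i, deg i ∈ DS X.B) (φ : (GM.pw deg (O X)).M →ₗ[R] M.M)
      (e : D) (f : R), Deg0 φ ∧ Function.Injective φ ∧ Hmg e f ∧ f ∉ X.I ∧
      ∀ m, ∃ a, φ a = f • m := by
  classical
  have hp : X.I.IsPrime := hX
  obtain ⟨N, d, m, hd, h0, hsp⟩ := (stab_top (M := M)).exists_gens
  let Q : Finset (Fin N) → Prop := fun s =>
    ∀ c : Fin N → R, ∑ i ∈ s, c i • m i = 0 → ∀ i ∈ s, c i ∈ X.I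
  obtain ⟨s, hs⟩ : ∃ s, Maximal Q s := by
    obtain ⟨s, -, hs⟩ := Finite.exists_le_maximal (p := Q) (a := ∅) (fun c _ i hi => by simp at hi)
    exact ⟨s, hs⟩
  let S : Submodule R M.M := Submodule.span R (m '' s)
  have hS : M.Stab S := stab_span (by rintro _ ⟨i, -, rfl⟩; exact ⟨_, hd i⟩)
  -- every generator has a multiple in `S`
  have key : ∀ j, ∃ e f, Hmg e f ∧ f ∉ X.I ∧ f • m j ∈ S := by
    intro j
    by_cases hj : j ∈ s
    · refine ⟨0, 1, Hmg.one, fun h => hp.ne_top ((Ideal.eq_top_iff_one _).2 h), ?_⟩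
      rw [one_smul]; exact Submodule.subset_span ⟨j, hj, rfl⟩
    have hq : ¬ Q (insert j s) := fun h =>
      hj (hs.2 h (Finset.subset_insert j s) (Finset.mem_insert_self j s))
    simp only [Q, not_forall] at hq
    obtain ⟨c, hc0, i, hi, hci⟩ := hq
    rw [Finset.sum_insert hj] at hc0
    have hcj : c j ∉ X.I := by
      intro h
      rw [hM.ann _ h, zero_add] at hc0
      rcases Finset.mem_insert.1 hi with rfl | hi
      · exact hci h
      · exact hci (hs.1 c hc0 i hi)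
    have hmem : c j • m j ∈ S := by
      rw [eq_neg_of_add_eq_zero_left hc0]
      exact neg_mem (Submodule.sum_mem _ fun i hi =>
        Submodule.smul_mem _ _ (Submodule.subset_span ⟨i, hi, rfl⟩))
    obtain ⟨t, ht, -⟩ := exists_sum_hc (c j)
    obtain ⟨e, he⟩ : ∃ e, hc e (c j) ∉ X.I := by
      by_contra hall
      push Not at hall
      exact hcj (ht ▸ Ideal.sum_mem _ fun e _ => hall e)
    refine ⟨e, _, hc_hmg e _, he, ?_⟩
    rw [← M.cp_smul' (hd j)]
    exact hS.cp_mem hmem _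
  choose e f hf hfn hfm using key
  let σ : Fin s.card ≃ s := s.equivFin.symm
  let φ : (GM.pw (fun i => -d (σ i)) (O X)).M →ₗ[R] M.M :=
    ∑ i, dvSpan hM (m (σ i)) ∘ₗ LinearMap.proj i
  have hφ : ∀ a : Fin s.card → R,
      φ (fun i => Ideal.Quotient.mk X.I (a i)) = ∑ i, a i • m (σ i) := fun a => by
    exact LinearMap.sum_apply _ _ _
  have hsurj : ∀ a : (GM.pw (fun i => -d (σ i)) (O X)).M, ∃ b : Fin s.card → R,
      a = fun i => Ideal.Quotient.mk X.I (b i) := fun a => by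
    choose b hb using fun i => Ideal.Quotient.mk_surjective (I := X.I) (a i)
    exact ⟨b, funext fun i => (hb i).symm⟩
  refine ⟨s.card, fun i => -d (σ i), fun i => neg_mem (hM.deg.dv_mem (hd _) (h0 _)), φ,
    ∑ j, e j, ∏ j, f j, ?_, ?_, Hmg.prod _ fun j _ => hf j, ?_, ?_⟩
  · intro a
    obtain ⟨b, rfl⟩ := hsurj a
    have : (GM.pw (fun i => -d (σ i)) (O X)).g (fun i => Ideal.Quotient.mk X.I (b i))
        = fun i => Ideal.Quotient.mk X.I (C (chi (d (σ i))) * gam (b i)) := by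
      funext i
      change (C (chi (- -d (σ i))) : R) • (O X).g (Ideal.Quotient.mk X.I (b i)) = _
      rw [neg_neg]; rfl
    rw [this, hφ, hφ, map_sum]
    refine Finset.sum_congr rfl fun i _ => ?_
    rw [LinearMap.map_smulₛₗ, mem_gr.1 (hd _), mul_comm, mul_smul]
  · rw [injective_iff_map_eq_zero]
    intro a ha
    obtain ⟨b, rfl⟩ := hsurj a
    rw [hφ] at ha
    have := hs.1 (fun j => if h : j ∈ s then b (σ.symm ⟨j, h⟩) else 0) (by
      rw [← Finset.sum_coe_sort s, ← ha, ← σ.sum_comp]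
      refine Finset.sum_congr rfl fun i _ => ?_
      simp)
    funext i
    have h2 := this (σ i) (σ i).2
    rw [dif_pos (σ i).2, Subtype.coe_eta, Equiv.symm_apply_apply] at h2
    exact Ideal.Quotient.eq_zero_iff_mem.2 h2
  · rw [Ideal.IsPrime.prod_mem_iff]
    rintro ⟨j, -, hj⟩; exact hfn j hj
  · have hSr : S ≤ LinearMap.range φ := by
      refine Submodule.span_le.2 ?_
      rintro _ ⟨j, hj, rfl⟩
      refine ⟨fun i => Ideal.Quotient.mk X.I ((Pi.single (σ.symm ⟨j, hj⟩) 1 : _ → R) i), ?_⟩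
      rw [hφ, Finset.sum_eq_single (σ.symm ⟨j, hj⟩)]
      · simp
      · intro i _ hi; simp [hi]
      · simp
    intro x
    have hx : x ∈ Submodule.span R (Set.range m) := hsp ▸ Submodule.mem_top
    change (∏ j, f j) • x ∈ LinearMap.range φ
    induction hx using Submodule.span_induction with
    | mem _ h =>
      obtain ⟨j, rfl⟩ := h
      rw [← Finset.prod_erase_mul _ _ (Finset.mem_univ j), mul_smul]
      exact Submodule.smul_mem _ _ (hSr (hfm j))
    | zero => simp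
    | add a b _ _ ha hb => rw [smul_add]; exact add_mem ha hb
    | smul r a _ ha => rw [smul_comm]; exact Submodule.smul_mem _ _ ha

lemma dv_incl_self (a : G X) : incl X X a = a := by
  have : incl X X = AddMonoidHom.id _ :=
    G.hom_ext fun M hM => incl_cl (Spc.Sub.refl X) hM
  rw [this]; rfl

/-- the same with noetherian induction built in -/
theorem G.dev_ind (P : AddSubgroup (G X))
    (h : ∀ Z : Spc, Z.Sub X → Z.Irred →
      (∀ Z' : Spc, Z'.Sub Z → Z'.pts ≠ Z.pts → ∀ a : G Z', incl Z' X a ∈ P) →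
      ∀ d ∈ DS X.B, cl X ((O Z).shift d) ∈ P) : P = ⊤ := by
  have main : ∀ Z : Spc, Z.Sub X → ∀ a : G Z, incl Z X a ∈ P := by
    intro Z
    induction Z using Spc.noeth_ind with | _ Z ih => ?_
    intro hZ a
    have ih' : ∀ Z' : Spc, Z'.Sub Z → Z'.pts ≠ Z.pts → ∀ M : GM, M.On Z' → cl X M ∈ P :=
      fun Z' h1 h2 M hM => incl_cl (h1.trans hZ) hM ▸ ih Z' h1 h2 (h1.trans hZ) _
    induction a using G.ind_red with
    | h0 => simp
    | hneg a ha => rw [map_neg]; exact neg_mem ha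
    | hadd a b ha hb => rw [map_add]; exact add_mem ha hb
    | hcl M hM =>
    rw [incl_cl hZ hM.on]
    have hMX : M.On X := hM.on.mono hZ
    by_cases hi : Z.Irred
    · obtain ⟨n, deg, hdeg, φ, e, f, h0, hinj, hf, hfn, hφ⟩ := hM.exists_generic hi
      rw [cl_ses (dv_ses_of_inj φ h0 hinj) hMX]
      refine add_mem ?_ (ih' _ (Z.cut_sub _ _) (Spc.dv_cut_ne hf hfn) _
        ((hM.quot _).dv_on_cut hf fun q => ?_))
      · rw [cl_pw (fun i => hZ.1 ▸ hdeg i) ((red_O Z).on.mono hZ)]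
        exact sum_mem fun i _ => h Z hZ hi
          (fun Z' h1 h2 => ih Z' h1 h2 (h1.trans hZ)) _ (hZ.1 ▸ hdeg i)
      · induction q using Submodule.Quotient.induction_on with | _ m => ?_
        exact (Submodule.Quotient.mk_eq_zero _).2 (hφ m)
    rcases Z.pts.eq_empty_or_nonempty with he | hne
    · rw [cl_irr (Irr.mono hZ hM.on fun x hx => by simp [he] at hx)]; exact zero_mem _
    have := mt (Spc.irred_of hne) hi
    push Not at this
    obtain ⟨Z₁, Z₂, h₁, h₂, hc, hn₁, hn₂⟩ := this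
    have hst : M.Stab (Z₁.I • ⊤) := stab_top.smul fun _ => Z₁.gam_mem_I
    rw [cl_ses (ses_sub_quot hst) hMX]
    refine add_mem (ih' Z₂ h₂ hn₂ _ (Red.on ⟨h₂.1 ▸ (hM.sub hst).deg, fun r hr m => ?_⟩))
      (ih' Z₁ h₁ hn₁ _ (Red.on ⟨h₁.1 ▸ (hM.quot hst).deg, fun r hr q => ?_⟩))
    · obtain ⟨m, hm⟩ := m
      refine Subtype.ext ?_
      change r • m = 0
      refine Submodule.smul_induction_on (p := fun m => r • m = 0) hm (fun s hs n _ => ?_)
        fun a b ha hb => by rw [smul_add, ha, hb, add_zero]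
      rw [← mul_smul]
      refine hM.ann _ (fun x hx => ?_) _
      rcases hc hx with hx | hx
      · rw [map_mul, hs x hx, mul_zero]
      · rw [map_mul, hr x hx, zero_mul]
    · induction q using Submodule.Quotient.induction_on with | _ m => ?_
      exact (Submodule.Quotient.mk_eq_zero _).2 (Submodule.smul_mem_smul hr Submodule.mem_top)
  rw [eq_top_iff]
  intro a _
  rw [← dv_incl_self a]
  exact main X (Spc.Sub.refl X) a

/-- `G X` is generated by twisted structure sheaves of irreducible closed subspaces -/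
theorem G.dev (P : AddSubgroup (G X))
    (h : ∀ Z : Spc, Z.Sub X → Z.Irred → ∀ d ∈ DS X.B, cl X ((O Z).shift d) ∈ P) : P = ⊤ :=
  G.dev_ind P fun Z h1 h2 _ => h Z h1 h2

/-- closed covers -/
theorem G.cover {ι : Type} [Finite ι] (Z : ι → Spc) (hZ : ∀ i, (Z i).Sub X)
    (hc : ∀ x ∈ X.pts, ∃ i, x ∈ (Z i).pts) : ⨆ i, (incl (Z i) X).range = ⊤ := by
  refine G.dev _ fun Y hY hi d hd => ?_
  obtain ⟨i, h⟩ := hi.exists_sub hY Z hZ fun x hx => hc x (hY.2 hx)
  refine AddSubgroup.mem_iSup_of_mem i ⟨cl (Z i) ((O Y).shift d), incl_cl (hZ i) ?_⟩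
  exact ((red_O Y).on.mono h).shift ((hZ i).1 ▸ hd)

/-- restriction of functions -/
def dvRes {Z : Spc} (h : Z.Sub X) : (O X).M →ₗ[R] (O Z).M :=
  Submodule.mapQ X.I Z.I LinearMap.id h.I_le
lemma dvRes_mk {Z : Spc} (h : Z.Sub X) (r : R) :
    dvRes h (Ideal.Quotient.mk X.I r) = Ideal.Quotient.mk Z.I r := rfl
lemma deg0_dvRes {Z : Spc} (h : Z.Sub X) : Deg0 (dvRes h) := fun m => by
  obtain ⟨r, rfl⟩ := Ideal.Quotient.mk_surjective (I := X.I) m
  rfl

lemma dv_cl_O_two {Z₁ Z₂ : Spc} (h₁ : Z₁.Sub X) (h₂ : Z₂.Sub X) (hc : X.pts ⊆ Z₁.pts ∪ Z₂.pts)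
    (hd : Disjoint Z₁.pts Z₂.pts) : cl X (O X) = cl X (O Z₁) + cl X (O Z₂) := by
  have o₁ := (red_O Z₁).on.mono h₁
  have o₂ := (red_O Z₂).on.mono h₂
  rw [← cl_prod o₁ o₂]
  refine cl_locIso (A := O X) (B := prod (O Z₁) (O Z₂)) ((dvRes h₁).prod (dvRes h₂))
    (fun m => Prod.ext (deg0_dvRes h₁ m) (deg0_dvRes h₂ m)) (red_O X).on (o₁.prod o₂) fun x hx => ?_
  have hinj : ∀ (r : R) (a : (O X).M), ((dvRes h₁).prod (dvRes h₂)) a = 0 → r • a = 0 := by
    intro r a ha
    suffices a = 0 by rw [this, smul_zero]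
    obtain ⟨a, rfl⟩ := Ideal.Quotient.mk_surjective (I := X.I) a
    have e₁ : a ∈ Z₁.I := Ideal.Quotient.eq_zero_iff_mem.1 (congrArg Prod.fst ha)
    have e₂ : a ∈ Z₂.I := Ideal.Quotient.eq_zero_iff_mem.1 (congrArg Prod.snd ha)
    exact Ideal.Quotient.eq_zero_iff_mem.2 fun y hy => (hc hy).elim (e₁ y) (e₂ y)
  by_cases hx₂ : x ∈ Z₂.pts
  · obtain ⟨r, hr, h0⟩ := Spc.exists_notMem (Z := Z₁) (h₁.1 ▸ X.rel x hx)
      fun h => Set.disjoint_left.1 hd h hx₂
    refine ⟨r, h0, hinj r, fun ⟨a, b⟩ => ?_⟩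
    obtain ⟨b, rfl⟩ := Ideal.Quotient.mk_surjective (I := Z₂.I) b
    refine ⟨Ideal.Quotient.mk X.I (r * b), Prod.ext ?_ rfl⟩
    exact (Ideal.Quotient.eq_zero_iff_mem.2 (Ideal.mul_mem_right _ _ hr)).trans
      ((red_O Z₁).ann r hr a).symm
  · obtain ⟨r, hr, h0⟩ := Spc.exists_notMem (Z := Z₂) (h₂.1 ▸ X.rel x hx) hx₂
    refine ⟨r, h0, hinj r, fun ⟨a, b⟩ => ?_⟩
    obtain ⟨a, rfl⟩ := Ideal.Quotient.mk_surjective (I := Z₁.I) a
    refine ⟨Ideal.Quotient.mk X.I (r * a), Prod.ext rfl ?_⟩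
    exact (Ideal.Quotient.eq_zero_iff_mem.2 (Ideal.mul_mem_right _ _ hr)).trans
      ((red_O Z₂).ann r hr b).symm

lemma dv_cl_mono {Z : Spc} (hZ : Z.Sub X) {A : GM} {ι : Type} {s : Finset ι} {B : ι → GM}
    (hA : A.On Z) (hB : ∀ i ∈ s, (B i).On Z) (h : cl Z A = ∑ i ∈ s, cl Z (B i)) :
    cl X A = ∑ i ∈ s, cl X (B i) := by
  rw [← incl_cl hZ hA, h, map_sum]
  exact Finset.sum_congr rfl fun i hi => incl_cl hZ (hB i hi)

lemma Spc.dv_biUnion {ι : Type} (s : Finset ι) (Z : ι → Spc) (hZ : ∀ i ∈ s, (Z i).Sub X) :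
    ∃ U : Spc, U.Sub X ∧ ∀ x, x ∈ U.pts ↔ ∃ i ∈ s, x ∈ (Z i).pts := by
  classical
  induction s using Finset.induction_on with
  | empty => exact ⟨Spc.empty X.B, ⟨rfl, Set.empty_subset _⟩, fun x =>
      ⟨fun h => absurd h (Set.notMem_empty x), by simp⟩⟩
  | insert a s _ ih =>
    obtain ⟨U, hU, h⟩ := ih fun i hi => hZ i (Finset.mem_insert_of_mem hi)
    have ha := hZ a (Finset.mem_insert_self a s)
    refine ⟨X.union (Z a) U ha hU, ⟨rfl, Set.union_subset ha.2 hU.2⟩, fun x => ?_⟩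
    change x ∈ (Z a).pts ∪ U.pts ↔ _
    simp [h]

lemma dv_cl_O_disjoint {ι : Type} (Z : ι → Spc) (hd : ∀ i j, i ≠ j → Disjoint (Z i).pts (Z j).pts)
    (s : Finset ι) : ∀ X : Spc, (∀ i ∈ s, (Z i).Sub X) → (∀ x ∈ X.pts, ∃ i ∈ s, x ∈ (Z i).pts) →
      cl X (O X) = ∑ i ∈ s, cl X (O (Z i)) := by
  classical
  induction s using Finset.induction_on with
  | empty =>
    intro X _ hc
    exact cl_irr fun x hx => by simpa using hc x hx
  | insert a s has ih =>
    intro X hZ hc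
    have hs := fun i hi => hZ i (Finset.mem_insert_of_mem (b := a) hi)
    obtain ⟨U, hU, h⟩ := Spc.dv_biUnion s Z hs
    have ha := hZ a (Finset.mem_insert_self a s)
    have hsU : ∀ i ∈ s, (Z i).Sub U := fun i hi =>
      ⟨(hs i hi).1.trans hU.1.symm, fun x hx => (h x).2 ⟨i, hi, hx⟩⟩
    rw [Finset.sum_insert has, dv_cl_O_two ha hU, dv_cl_mono hU (red_O U).on
      (fun i hi => (red_O _).on.mono (hsU i hi)) (ih U hsU fun x hx => (h x).1 hx)]
    · intro x hx
      obtain ⟨i, hi, hx⟩ := hc x hx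
      rcases Finset.mem_insert.1 hi with rfl | hi
      · exact Or.inl hx
      · exact Or.inr ((h x).2 ⟨i, hi, hx⟩)
    · rw [Set.disjoint_left]
      intro x hx hU
      obtain ⟨i, hi, hx'⟩ := (h x).1 hU
      exact Set.disjoint_left.1 (hd a i fun e => has (e ▸ hi)) hx hx'

/-- the structure sheaf of a disjoint union -/
theorem one_disjoint {ι : Type} [Fintype ι] (Z : ι → Spc) (hZ : ∀ i, (Z i).Sub X)
    (hc : ∀ x ∈ X.pts, ∃ i, x ∈ (Z i).pts)
    (hd : ∀ i j, i ≠ j → Disjoint (Z i).pts (Z j).pts) : one X = ∑ i, incl (Z i) X (one (Z i)) := by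
  unfold one
  rw [dv_cl_O_disjoint Z hd Finset.univ X (fun i _ => hZ i) fun x hx => by simpa using hc x hx]
  exact Finset.sum_congr rfl fun i _ => (incl_cl (hZ i) (red_O _).on).symm

/-- multiplication by a homogeneous element -/
def dvMul (M : GM) (f : R) (d d' : D) : (M.shift d).M →ₗ[R] (M.shift d').M :=
  LinearMap.lsmul R M.M f
lemma deg0_dvMul (M : GM) {e : D} {f : R} (hf : Hmg e f) (d : D) :
    Deg0 (dvMul M f d (d + e)) := fun m => by
  change f • (C (chi (-d)) : R) • M.g m = (C (chi (-(d + e))) : R) • M.g (f • (show M.M from m))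
  rw [LinearMap.map_smulₛₗ, hf, ← mul_smul, ← mul_smul, ← mul_assoc, ← map_mul, ← chi_add,
    mul_comm f]
  congr 4; abel

/-- multiplication by a homogeneous function that is not zero on the irreducible `X` -/
theorem sh_sub_mem (hX : X.Irred) {e : D} {f : R} (hf : Hmg e f) (hn : f ∉ X.I) {d : D}
    (hd : d ∈ DS X.B) : cl X ((O X).shift (d + e)) - cl X ((O X).shift d) ∈
      (incl (X.cut {f} (by rintro r rfl; exact ⟨_, hf⟩)) X).range := by
  have hp : X.I.IsPrime := hX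
  have hr := (red_O X).shift (add_mem hd (hf.dv_mem_DS hn))
  have hinj : Function.Injective (dvMul (O X) f d (d + e)) := by
    rw [injective_iff_map_eq_zero]
    intro a ha
    obtain ⟨a, rfl⟩ := Ideal.Quotient.mk_surjective (I := X.I) a
    have : f * a ∈ X.I := Ideal.Quotient.eq_zero_iff_mem.1 ha
    exact Ideal.Quotient.eq_zero_iff_mem.2 ((hp.mem_or_mem this).resolve_left hn)
  rw [cl_ses (dv_ses_of_inj _ (deg0_dvMul (O X) hf d) hinj) hr.on, add_sub_cancel_left]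
  refine ⟨_, incl_cl (X.cut_sub _ _) ((hr.quot _).dv_on_cut hf fun q => ?_)⟩
  induction q using Submodule.Quotient.induction_on with | _ m => ?_
  exact (Submodule.Quotient.mk_eq_zero _).2 ⟨m, rfl⟩

end Crest.Agent.N265
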