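import Crest.Agent.N265.Core
import Crest.Agent.N265.Jac.Irr

/-! # Task G1: homogeneous elements, components, Nullstellensatz -/

set_option autoImplicit false
noncomputable section
open MvPolynomial

namespace Crest.Agent.N265

lemma gam_inj : Function.Injective gam := Jac.gam_bijective.1
lemma gam_surj : Function.Surjective gam := Jac.gam_bijective.2
lemma gpt_inj : Function.Injective gpt := fun x y h => by
  funext v
  have : chi (vdeg v) * x v = chi (vdeg v) * y v := congrFun h v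
  exact mul_left_cancel₀ (chi_ne (vdeg v)) this
lemma gpt_surj : Function.Surjective gpt := fun x =>
  ⟨fun v => (chi (vdeg v))⁻¹ * x v, funext fun _ => mul_inv_cancel_left₀ (chi_ne _) _⟩
lemma restr_gpt (B : Finset ℕ) (x : Pt) : restr B (gpt x) = gpt (restr B x) := by
  funext v; by_cases h : v.1 ∈ B <;> simp [restr, gpt, h]
lemma rel_gpt {B : Finset ℕ} {x : Pt} : Rel B (gpt x) ↔ Rel B x := by
  simp [Rel, gpt, chi_ne]
lemma rel_restr {B B' : Finset ℕ} (h : B' ⊆ B) {x : Pt} : Rel B' (restr B x) ↔ Rel B' x := by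
  refine forall₂_congr fun b hb => exists_congr fun v => and_congr_right fun hv => ?_
  simp [restr, hv, h hb]

namespace Hmg
lemma C (c : ℂ) : Hmg 0 (C c) := by simp [Hmg]
lemma one : Hmg 0 1 := by simp [Hmg]
lemma zero (d : D) : Hmg d 0 := by simp [Hmg]
lemma X (v : Var) : Hmg (vdeg v) (X v) := gam_X v
lemma add {d : D} {r s : R} (h : Hmg d r) (h' : Hmg d s) : Hmg d (r + s) := by
  unfold Hmg at *; rw [map_add, h, h', mul_add]
lemma neg {d : D} {r : R} (h : Hmg d r) : Hmg d (-r) := by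
  unfold Hmg at *; rw [map_neg, h, mul_neg]
lemma sub {d : D} {r s : R} (h : Hmg d r) (h' : Hmg d s) : Hmg d (r - s) := by
  unfold Hmg at *; rw [map_sub, h, h', mul_sub]
lemma mul {d e : D} {r s : R} (h : Hmg d r) (h' : Hmg e s) : Hmg (d + e) (r * s) := by
  unfold Hmg at *; rw [map_mul, h, h', chi_add, map_mul]; ring
lemma C_mul {d : D} {r : R} (c : ℂ) (h : Hmg d r) : Hmg d (MvPolynomial.C c * r) := by
  simpa using (C c).mul h
lemma smul {d : D} {r : R} (c : ℂ) (h : Hmg d r) : Hmg d (c • r) := by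
  rw [smul_eq_C_mul]; exact h.C_mul c
lemma cast {d e : D} {r : R} (h : Hmg d r) (he : d = e) : Hmg e r := he ▸ h
lemma pow {d : D} {r : R} (h : Hmg d r) (n : ℕ) : Hmg (n • d) (r ^ n) := by
  induction n with
  | zero => simpa using one
  | succ n ih => rw [succ_nsmul, pow_succ]; exact ih.mul h
lemma sum {ι : Type*} {d : D} (s : Finset ι) {r : ι → R} (h : ∀ i ∈ s, Hmg d (r i)) :
    Hmg d (∑ i ∈ s, r i) := Finset.sum_induction _ _ (fun _ _ => add) (zero d) h
lemma prod {ι : Type*} (s : Finset ι) {d : ι → D} {r : ι → R} (h : ∀ i ∈ s, Hmg (d i) (r i)) :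
    Hmg (∑ i ∈ s, d i) (∏ i ∈ s, r i) := by
  classical
  induction s using Finset.induction_on with
  | empty => simpa using one
  | insert a t ha ih =>
    rw [Finset.sum_insert ha, Finset.prod_insert ha]
    exact (h a (Finset.mem_insert_self _ _)).mul (ih fun i hi => h i (Finset.mem_insert_of_mem hi))
lemma kill {d : D} {r : R} (h : Hmg d r) (B : Finset ℕ) : Hmg d (kill B r) := by
  unfold Hmg at *
  rw [gam_kill, h, map_mul]
  simp [N265.kill]
lemma eval_gpt {d : D} {r : R} (h : Hmg d r) (x : Pt) : eval (gpt x) r = chi d * eval x r := by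
  rw [← eval_gam, h]; simp
lemma det {ι : Type} [Fintype ι] [DecidableEq ι] {a b : ι → D} {Φ : Matrix ι ι R}
    (h : MHmg a b Φ) : Hmg (∑ i, b i - ∑ i, a i) Φ.det := by
  rw [Matrix.det_apply']
  refine sum _ fun σ _ => ?_
  have h1 := prod Finset.univ (d := fun i => b (σ i) - a i) (r := fun i => Φ (σ i) i)
    fun i _ => h _ _
  rw [Finset.sum_sub_distrib, Equiv.sum_comp σ b] at h1
  simpa using h1.C_mul ((Equiv.Perm.sign σ : ℤ) : ℂ)
lemma monomial (m : Var →₀ ℕ) (c : ℂ) : Hmg (Finsupp.weight vdeg m) (monomial m c) := by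
  rw [monomial_eq, Finsupp.weight_apply, Finsupp.sum, Finsupp.prod]
  exact (prod _ fun v _ => (X v).pow (m v)).C_mul c
end Hmg
lemma coeff_gam (r : R) (m : Var →₀ ℕ) :
    coeff m (gam r) = chi (Finsupp.weight vdeg m) * coeff m r := by
  classical
  induction r using MvPolynomial.induction_on' with
  | monomial n c =>
    rw [Hmg.monomial n c, coeff_C_mul]
    by_cases h : n = m
    · rw [h]
    · simp [coeff_monomial, h]
  | add p q hp hq => simp only [map_add, coeff_add, hp, hq, mul_add]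
lemma hmg_iff {d : D} {r : R} : Hmg d r ↔ IsWeightedHomogeneous vdeg r d := by
  constructor
  · intro h m hm
    have := congrArg (coeff m) h
    rw [coeff_gam, coeff_C_mul] at this
    exact chi_inj (mul_right_cancel₀ hm this)
  · intro h
    ext m
    rw [coeff_gam, coeff_C_mul]
    by_cases hm : coeff m r = 0
    · simp [hm]
    · rw [h hm]
lemma vdeg_some (v : Var) (b : ℕ) : vdeg v (some b) = if v.1 = b then 1 else 0 := by
  simp [vdeg, eB, eT, Finsupp.single_apply]
lemma vdeg_none (v : Var) : vdeg v none = v.2.2 := by simp [vdeg, eB, eT]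
lemma weight_some (m : Var →₀ ℕ) (b : ℕ) :
    Finsupp.weight vdeg m (some b) = ∑ v ∈ m.support, if v.1 = b then (m v : ℤ) else 0 := by
  rw [Finsupp.weight_apply, Finsupp.sum, Finsupp.finsetSum_apply]
  exact Finset.sum_congr rfl fun v _ => by simp [vdeg_some]
/-- a homogeneous polynomial whose degree involves a block outside `B` dies under `kill B` -/
lemma Hmg.kill_eq_zero {d : D} {r : R} (h : Hmg d r) {B : Finset ℕ} (hd : d ∉ DS B) :
    N265.kill B r = 0 := by
  rw [r.as_sum, map_sum]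
  refine Finset.sum_eq_zero fun m hm => ?_
  have hw := hmg_iff.1 h (mem_support_iff.1 hm)
  obtain ⟨v, hv, hB⟩ : ∃ v ∈ m.support, v.1 ∉ B := by
    by_contra! hc
    refine hd fun b hb => ?_
    rw [← hw, weight_some]
    exact Finset.sum_eq_zero fun v hv => if_neg fun e : v.1 = b => hb (e ▸ hc v hv)
  rw [N265.kill, aeval_monomial, Finsupp.prod, Finset.prod_eq_zero hv, mul_zero]
  rw [if_neg hB, zero_pow (Finsupp.mem_support_iff.1 hv)]
/-- homogeneous polynomials have non-negative block degrees -/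
lemma Hmg.eq_zero_of_neg {d : D} {r : R} (h : Hmg d r) {b : ℕ} (hd : d (some b) < 0) : r = 0 := by
  by_contra h0
  obtain ⟨m, hm⟩ := MvPolynomial.ne_zero_iff.1 h0
  rw [← hmg_iff.1 h hm, weight_some] at hd
  exact hd.not_ge (Finset.sum_nonneg fun v _ => by split_ifs <;> simp)
lemma MHmg.mul {ι κ μ : Type} [Fintype κ] {a : ι → D} {b : κ → D} {c : μ → D}
    {Φ : Matrix κ ι R} {Ψ : Matrix μ κ R} (hΨ : MHmg b c Ψ) (hΦ : MHmg a b Φ) :
    MHmg a c (Ψ * Φ) := fun k i => by
  rw [Matrix.mul_apply]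
  exact Hmg.sum _ fun j _ => ((hΨ k j).mul (hΦ j i)).cast (by abel)
lemma MHmg.one {ι : Type} [DecidableEq ι] (a : ι → D) : MHmg a a (1 : Matrix ι ι R) := fun j i => by
  by_cases h : j = i
  · subst h; simpa using Hmg.one
  · rw [Matrix.one_apply_ne h]; exact Hmg.zero _
lemma mev_mul {ι κ μ : Type} [Fintype ι] [Fintype κ] (x : Pt) (Ψ : Matrix μ κ R)
    (Φ : Matrix κ ι R) (v : ι → ℂ) : mev x (Ψ * Φ) v = mev x Ψ (mev x Φ v) := by
  simp only [mev, Matrix.map_mul, Matrix.mulVecLin_mul, LinearMap.comp_apply]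
lemma mev_apply {ι κ : Type} [Fintype ι] (x : Pt) (Φ : Matrix κ ι R) (v : ι → ℂ) (j : κ) :
    mev x Φ v j = ∑ i, eval x (Φ j i) * v i := rfl
lemma mev_gpt {ι κ : Type} [Fintype ι] {a : ι → D} {b : κ → D} {Φ : Matrix κ ι R}
    (h : MHmg a b Φ) (x : Pt) (v : ι → ℂ) :
    mev (gpt x) Φ (fun i => chi (a i) * v i) = fun j => chi (b j) * mev x Φ v j := by
  funext j
  simp only [mev_apply, Finset.mul_sum]
  refine Finset.sum_congr rfl fun i _ => ?_
  rw [(h j i).eval_gpt, chi_sub]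
  have := chi_ne (a i)
  field_simp

/-- the full torus: characters of `D` -/
abbrev Tor : Type := Multiplicative D →* ℂˣ
/-- the torus acts on points -/
def tpt (c : Tor) (x : Pt) : Pt := fun v => (c (Multiplicative.ofAdd (vdeg v)) : ℂ) * x v
lemma Hmg.eval_tpt {d : D} {r : R} (h : Hmg d r) (c : Tor) (x : Pt) :
    eval (tpt c x) r = (c (Multiplicative.ofAdd d) : ℂ) * eval x r := by
  rw [r.as_sum, map_sum, map_sum, Finset.mul_sum]
  refine Finset.sum_congr rfl fun m hm => ?_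
  rw [← hmg_iff.1 h (mem_support_iff.1 hm), eval_monomial, eval_monomial, Finsupp.weight_apply,
    Finsupp.sum, ofAdd_sum, map_prod, Units.coe_prod, Finsupp.prod, Finsupp.prod, mul_left_comm,
    ← Finset.prod_mul_distrib]
  congr 1
  exact Finset.prod_congr rfl fun v _ => by rw [tpt, mul_pow, ofAdd_nsmul, map_pow, Units.val_pow_eq_pow_val]
/-- a torus element with prescribed values on the generators -/
lemma exists_tor (a : Option ℕ → ℂˣ) : ∃ c : Tor, ∀ i,
    c (Multiplicative.ofAdd (Finsupp.single i 1)) = a i :=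
  ⟨{ toFun := fun d => (Multiplicative.toAdd d).prod fun i n => a i ^ n
     map_one' := by simp
     map_mul' := fun d e => Finsupp.prod_add_index' (by simp) fun _ _ _ => zpow_add _ _ _ },
    fun i => (Finsupp.prod_single_index (h := fun i (n : ℤ) => a i ^ n) (zpow_zero _)).trans
      (zpow_one _)⟩

/-- homogeneous component of a polynomial -/
def hc (d : D) : R →ₗ[ℂ] R := by classical exact weightedHomogeneousComponent vdeg d
lemma hc_hmg (d : D) (r : R) : Hmg d (hc d r) :=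
  hmg_iff.2 (weightedHomogeneousComponent_isWeightedHomogeneous d r)
lemma exists_sum_hc (r : R) : ∃ s : Finset D, ∑ d ∈ s, hc d r = r ∧ ∀ d ∉ s, hc d r = 0 := by
  have hf := weightedHomogeneousComponent_finsupp (w := vdeg) r
  refine ⟨hf.toFinset, ?_, fun d hd => by_contra fun h => hd (hf.mem_toFinset.2 h)⟩
  rw [← finsum_eq_sum_of_support_subset (fun d => hc d r) (s := hf.toFinset)]
  · exact sum_weightedHomogeneousComponent vdeg r
  · exact fun d hd => hf.mem_toFinset.2 hd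
lemma hc_of_hmg {d : D} {r : R} (h : Hmg d r) : hc d r = r :=
  (hmg_iff.1 h).weightedHomogeneousComponent_same
lemma hc_of_hmg_ne {d e : D} {r : R} (h : Hmg d r) (he : e ≠ d) : hc e r = 0 :=
  (hmg_iff.1 h).weightedHomogeneousComponent_ne e he
/-- induction over homogeneous polynomials -/
lemma hmg_ind {P : R → Prop} (h : ∀ d r, Hmg d r → P r) (ha : ∀ r s, P r → P s → P (r + s))
    (r : R) : P r := by
  obtain ⟨s, hs, -⟩ := exists_sum_hc r
  rw [← hs]
  exact Finset.sum_induction _ P ha (h 0 0 (Hmg.zero 0)) fun d _ => h d _ (hc_hmg d r)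
lemma hc_mul {e : D} {s : R} (h : Hmg e s) (d : D) (r : R) :
    hc (d + e) (r * s) = hc d r * s := by
  induction r using hmg_ind with
  | h d' r hr =>
    by_cases hd : d = d'
    · subst hd; rw [hc_of_hmg hr, hc_of_hmg (hr.mul h)]
    · rw [hc_of_hmg_ne hr hd, hc_of_hmg_ne (hr.mul h) fun e => hd (add_right_cancel e), zero_mul]
  | ha r r' h1 h2 => simp only [add_mul, map_add, h1, h2]
lemma hc_gam (d : D) (r : R) : hc d (gam r) = C (chi d) * hc d r := by
  induction r using hmg_ind with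
  | h d' r hr =>
    rw [show gam r = _ from hr]
    by_cases hd : d = d'
    · subst hd; rw [hc_of_hmg hr, hc_of_hmg (hr.C_mul _)]
    · rw [hc_of_hmg_ne hr hd, hc_of_hmg_ne (hr.C_mul _) hd, mul_zero]
  | ha r r' h1 h2 => simp only [mul_add, map_add, h1, h2]
/-- eigenvectors with distinct eigenvalues whose sum lies in a stable subspace lie in it -/
lemma mem_of_sum_eig {M ι : Type*} [AddCommGroup M] [Module ℂ M] (g : M →ₗ[ℂ] M)
    (N : Submodule ℂ M) (hN : ∀ m ∈ N, g m ∈ N) (s : Finset ι) (c : ι → ℂ) (hc : Set.InjOn c s)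
    (m : ι → M) (hm : ∀ i ∈ s, g (m i) = c i • m i) (h : ∑ i ∈ s, m i ∈ N) :
    ∀ i ∈ s, m i ∈ N := by
  classical
  induction s using Finset.induction_on generalizing m with
  | empty => simp
  | insert a s ha ih =>
    have h1 : ∑ i ∈ s, (c i - c a) • m i ∈ N := by
      have h2 : g (∑ i ∈ insert a s, m i) - c a • ∑ i ∈ insert a s, m i ∈ N :=
        N.sub_mem (hN _ h) (N.smul_mem _ h)
      rw [map_sum, Finset.smul_sum, ← Finset.sum_sub_distrib, Finset.sum_insert ha,
        hm a (Finset.mem_insert_self _ _), sub_self, zero_add] at h2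
      convert h2 using 2 with i hi
      rw [hm i (Finset.mem_insert_of_mem hi), sub_smul]
    have h3 := ih (hc.mono (by simp)) (fun i => (c i - c a) • m i)
      (fun i hi => by rw [map_smul, hm i (Finset.mem_insert_of_mem hi), smul_comm]) h1
    have h4 : ∀ i ∈ s, m i ∈ N := fun i hi => by
      have hne : c i - c a ≠ 0 := sub_ne_zero.2 fun e =>
        ha (hc (Finset.mem_coe.2 (Finset.mem_insert_of_mem hi))
          (Finset.mem_coe.2 (Finset.mem_insert_self _ _)) e ▸ hi)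
      exact (N.smul_mem_iff hne).1 (h3 i hi)
    intro i hi
    rcases Finset.mem_insert.1 hi with rfl | hi
    · rw [Finset.sum_insert ha] at h
      exact (N.add_mem_iff_left (N.sum_mem h4)).1 h
    · exact h4 i hi
/-- Vandermonde: a `gam`-stable subspace is graded -/
lemma hc_mem {J : Submodule ℂ R} (hJ : ∀ r ∈ J, gam r ∈ J) {r : R} (hr : r ∈ J) (d : D) :
    hc d r ∈ J := by
  obtain ⟨s, h1, h2⟩ := exists_sum_hc r
  by_cases hd : d ∈ s
  · exact mem_of_sum_eig gamA.toLinearMap J hJ s chi chi_inj.injOn (fun d => hc d r)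
      (fun e _ => (hc_hmg e r).trans (smul_eq_C_mul _ _).symm) (h1.symm ▸ hr) d hd
  · rw [h2 d hd]; exact J.zero_mem
lemma hc_mem_ideal {J : Ideal R} (hJ : ∀ r ∈ J, gam r ∈ J) {r : R} (hr : r ∈ J) (d : D) :
    hc d r ∈ J := hc_mem (J := J.restrictScalars ℂ) hJ hr d
lemma mem_of_gam_mem {J : Ideal R} (hJ : ∀ r ∈ J, gam r ∈ J) {r : R} (hr : gam r ∈ J) : r ∈ J :=
  (Jac.StabI.gam_mem_iff hJ).1 hr
lemma chiQ_pos (d : D) : 0 < chiQ d :=
  Finset.prod_pos fun i _ => zpow_pos (by exact_mod_cast (prm_prime i).pos) _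
lemma chiQ_inj : Function.Injective chiQ := fun _ _ h => chi_inj (congrArg (Rat.cast : ℚ → ℂ) h)
/-- modulo a stable ideal an element outside it has a leading component -/
lemma exists_lead {J : Ideal R} {r : R} (hr : r ∉ J) : ∃ (s : Finset D) (d : D), d ∈ s ∧
    hc d r ∉ J ∧ (∀ e ∈ s, chiQ e ≤ chiQ d) ∧ r - ∑ e ∈ s, hc e r ∈ J := by
  classical
  obtain ⟨s, h1, -⟩ := exists_sum_hc r
  have h2 : r - ∑ e ∈ s.filter fun e => hc e r ∉ J, hc e r ∈ J := by
    have := Finset.sum_filter_add_sum_filter_not s (fun e => hc e r ∉ J) fun e => hc e r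
    rw [h1] at this
    rw [sub_eq_of_eq_add' this.symm]
    exact J.sum_mem fun e he => not_not.1 (Finset.mem_filter.1 he).2
  obtain ⟨d, hd, hmax⟩ := (s.filter fun e => hc e r ∉ J).exists_max_image chiQ
    (Finset.nonempty_iff_ne_empty.2 fun h => hr (by simpa [h] using h2))
  exact ⟨_, d, hd, (Finset.mem_filter.1 hd).2, hmax, h2⟩
/-- a stable ideal that is prime on homogeneous elements is prime -/
lemma isPrime_of_hmg {J : Ideal R} (hJ : ∀ r ∈ J, gam r ∈ J) (h1 : J ≠ ⊤)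
    (h : ∀ d e r s, Hmg d r → Hmg e s → r * s ∈ J → r ∈ J ∨ s ∈ J) : J.IsPrime := by
  refine ⟨h1, fun {r s} hrs => ?_⟩
  by_contra! hc'
  obtain ⟨S, d, hd, hdJ, hdm, hr⟩ := exists_lead hc'.1
  obtain ⟨T, e, he, heJ, hem, hs⟩ := exists_lead hc'.2
  have h2 : (∑ a ∈ S, hc a r) * ∑ b ∈ T, hc b s ∈ J := by
    have : (∑ a ∈ S, hc a r) * ∑ b ∈ T, hc b s = r * s - (r - ∑ a ∈ S, hc a r) * s -
        (∑ a ∈ S, hc a r) * (s - ∑ b ∈ T, hc b s) := by ring
    rw [this]
    exact sub_mem (sub_mem hrs (J.mul_mem_right _ hr)) (J.mul_mem_left _ hs)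
  have h3 := hc_mem_ideal hJ h2 (d + e)
  rw [Finset.sum_mul_sum, ← Finset.sum_product', map_sum, Finset.sum_eq_single_of_mem (d, e)
    (Finset.mk_mem_product hd he), hc_of_hmg ((hc_hmg d r).mul (hc_hmg e s))] at h3
  · exact (h _ _ _ _ (hc_hmg d r) (hc_hmg e s) h3).elim hdJ heJ
  · rintro ⟨a, b⟩ hab hne
    obtain ⟨ha, hb⟩ := Finset.mem_product.1 hab
    refine hc_of_hmg_ne ((hc_hmg a r).mul (hc_hmg b s)) fun heq => hne ?_
    have h4 := congrArg chiQ heq
    rw [chiQ_add, chiQ_add] at h4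
    have h5 : chiQ a = chiQ d := by
      refine le_antisymm (hdm a ha) (not_lt.1 fun hlt => ?_)
      exact (mul_lt_mul hlt (hem b hb) (chiQ_pos b) (chiQ_pos d).le).ne' h4
    obtain rfl := chiQ_inj h5
    rw [add_left_cancel heq]

lemma Spc.tpt_mem (X : Spc) (c : Tor) {x : Pt} (hx : x ∈ X.pts) : tpt c x ∈ X.pts := by
  refine X.closed _ (fun b hb => ?_) fun r hr => ?_
  · obtain ⟨v, h1, h2⟩ := X.rel x hx b hb
    exact ⟨v, h1, mul_ne_zero (Units.ne_zero _) h2⟩
  · obtain ⟨s, h1, -⟩ := exists_sum_hc r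
    rw [← h1, map_sum]
    refine Finset.sum_eq_zero fun d _ => ?_
    rw [(hc_hmg d r).eval_tpt, hc_mem_ideal (J := X.I) (fun _ => X.gam_mem_I) hr d x hx, mul_zero]
lemma Spc.mem_of_gpt (X : Spc) {x : Pt} (hx : gpt x ∈ X.pts) : x ∈ X.pts := by
  refine X.closed _ (rel_gpt.1 (X.rel _ hx)) fun r hr => ?_
  obtain ⟨s, rfl⟩ := gam_surj r
  rw [eval_gam]
  exact mem_of_gam_mem (J := X.I) (fun _ => X.gam_mem_I) hr _ hx
/-- a polynomial that is non-zero at a point of a stable ideal's complement can be taken homogeneous -/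
lemma exists_hmg_of_mem {J : Ideal R} (hJ : ∀ r ∈ J, gam r ∈ J) {r : R} (hr : r ∈ J) {x : Pt}
    (hx : eval x r ≠ 0) : ∃ d s, Hmg d s ∧ s ∈ J ∧ eval x s ≠ 0 := by
  by_contra! h
  obtain ⟨s, h1, -⟩ := exists_sum_hc r
  rw [← h1, map_sum] at hx
  exact hx (Finset.sum_eq_zero fun d _ => h d _ (hc_hmg d r) (hc_mem_ideal hJ hr d))

/-- ideals containing almost all variables have noetherian quotient -/
lemma noeth_quot (J : Ideal R) (V : Finset Var) (hV : ∀ v ∉ V, (X v : R) ∈ J) :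
    IsNoetherianRing (R ⧸ J) := Jac.FinJ.noeth ⟨V, hV⟩
lemma Spc.exists_V (X : Spc) : ∃ V : Finset Var, (∀ v ∈ V, v.1 ∈ X.B) ∧
    ∀ v ∉ V, (MvPolynomial.X v : R) ∈ X.I :=
  X.fin.imp fun _ h => ⟨h.1, fun v hv x hx => by rw [eval_X]; exact h.2 x hx v hv⟩
instance Spc.noeth (X : Spc) : IsNoetherianRing (R ⧸ X.I) := by
  obtain ⟨V, -, hV⟩ := X.exists_V; exact noeth_quot _ V hV
/-- Nullstellensatz -/
lemma nss (J : Ideal R) (V : Finset Var) (hV : ∀ v ∉ V, (X v : R) ∈ J) {r : R}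
    (hr : ∀ x : Pt, (∀ s ∈ J, eval x s = 0) → eval x r = 0) : ∃ n, r ^ n ∈ J :=
  Jac.nss ⟨V, hV⟩ fun y hy => hr y fun _ hs => hy hs
/-- maximal ideals are points -/
lemma exists_pt_of_isMaximal (J : Ideal R) [J.IsMaximal] (V : Finset Var)
    (hV : ∀ v ∉ V, (X v : R) ∈ J) : ∃ x : Pt, J = mx x := by
  by_contra! h
  obtain ⟨n, hn⟩ := Jac.nss (a := 1) ⟨V, hV⟩ fun y hy =>
    (h y (Ideal.IsMaximal.eq_of_le ‹_› (Jac.mx_isMaximal y).ne_top hy)).elim
  exact Ideal.IsMaximal.ne_top ‹_› ((Ideal.eq_top_iff_one J).2 (by simpa using hn))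
instance mx_isMaximal (x : Pt) : (mx x).IsMaximal := Jac.mx_isMaximal x
/-- quasi-compactness of a space: finitely many of the local functions suffice -/
lemma Spc.exists_finite_cover (X : Spc) (r : Pt → R) (hr : ∀ x ∈ X.pts, eval x (r x) ≠ 0) :
    ∃ s : Finset Pt, (↑s : Set Pt) ⊆ X.pts ∧ ∀ y ∈ X.pts, ∃ x ∈ s, eval y (r x) ≠ 0 := by
  obtain ⟨t, ht⟩ := Jac.exists_finite_cover X (fun x : X.pts => r x.1)
    fun x hx => ⟨⟨x, hx⟩, hr x hx⟩
  refine ⟨t.map (Function.Embedding.subtype _), fun x hx => ?_, fun y hy => ?_⟩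
  · obtain ⟨z, -, rfl⟩ := Finset.mem_map.1 hx
    exact z.2
  · obtain ⟨z, h1, h2⟩ := ht y hy
    exact ⟨z.1, Finset.mem_map_of_mem _ h1, h2⟩

namespace GM
variable (M : GM)
/-- `g` as a `ℂ`-linear map -/
def gC : M.M →ₗ[ℂ] M.M where
  toFun := M.g
  map_add' := map_add M.g
  map_smul' c m := by simp only [c_smul, LinearMap.map_smulₛₗ, gam_C, RingHom.id_apply]
@[simp] lemma gC_apply (m : M.M) : M.gC m = M.g m := rfl
lemma g_csmul (c : ℂ) (m : M.M) : M.g (c • m) = c • M.g m := M.gC.map_smul c m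
lemma gr_eq (d : D) : M.gr d = Module.End.eigenspace M.gC (chi d) := by
  ext m; rw [Module.End.mem_eigenspace_iff]; rfl
/-- induction over homogeneous elements -/
lemma gr_ind {P : M.M → Prop} (h : ∀ d, ∀ m ∈ M.gr d, P m) (ha : ∀ m n, P m → P n → P (m + n))
    (m : M.M) : P m := by
  suffices P m ∧ P (-m) from this.1
  induction M.diag m using AddSubgroup.closure_induction with
  | mem m hm => obtain ⟨d, hd⟩ := hm; exact ⟨h d m hd, h d _ (neg_mem (show m ∈ M.gr d from hd))⟩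
  | zero => rw [neg_zero, and_self]; exact h 0 0 (zero_mem _)
  | add m n _ _ hm hn => exact ⟨ha _ _ hm.1 hn.1, by rw [neg_add]; exact ha _ _ hm.2 hn.2⟩
  | neg m _ hm => exact ⟨hm.2, by rw [neg_neg]; exact hm.1⟩
lemma g_surj : Function.Surjective M.g := fun m => by
  induction m using gr_ind with
  | h d m hm =>
    refine ⟨(chi d)⁻¹ • m, ?_⟩
    rw [g_csmul, mem_gr.1 hm, ← c_smul, smul_smul, inv_mul_cancel₀ (chi_ne d), one_smul]
  | ha m n hm hn =>
    obtain ⟨a, rfl⟩ := hm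
    obtain ⟨b, rfl⟩ := hn
    exact ⟨a + b, map_add _ _ _⟩
lemma gr_indep : iSupIndep M.gr := by
  rw [funext M.gr_eq]
  exact (Module.End.eigenspaces_iSupIndep M.gC).comp chi_inj
lemma gr_top : ⨆ d, M.gr d = ⊤ := top_le_iff.1 fun m _ =>
  M.gr_ind (fun d _ hm => Submodule.mem_iSup_of_mem d hm) (fun _ _ => add_mem) m
lemma exists_cp : ∃ cp : D → M.M →ₗ[ℂ] M.M, (∀ d m, cp d m ∈ M.gr d) ∧
    (∀ d m, m ∈ M.gr d → cp d m = m) ∧ (∀ d e m, m ∈ M.gr e → d ≠ e → cp d m = 0) := by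
  have hc : ∀ d, IsCompl (M.gr d) (⨆ e, ⨆ _ : e ≠ d, M.gr e) := fun d =>
    ⟨M.gr_indep d, codisjoint_iff.2 (top_le_iff.1 (M.gr_top ▸ iSup_le fun e => by
      by_cases h : e = d
      · exact h ▸ le_sup_left
      · exact le_sup_of_le_right (le_iSup₂_of_le e h le_rfl)))⟩
  refine ⟨fun d => (M.gr d).subtype ∘ₗ (M.gr d).projectionOnto _ (hc d), fun d m => Subtype.prop _,
    fun d m hm => congrArg Subtype.val (Submodule.projectionOnto_apply_left (hc d) ⟨m, hm⟩),
    fun d e m hm hne => congrArg Subtype.val (Submodule.projectionOnto_apply_right (hc d)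
      ⟨m, Submodule.mem_iSup_of_mem e (Submodule.mem_iSup_of_mem hne.symm hm)⟩)⟩
/-- homogeneous component -/
def cp (d : D) : M.M →ₗ[ℂ] M.M := M.exists_cp.choose d
lemma cp_mem (d : D) (m : M.M) : M.cp d m ∈ M.gr d := M.exists_cp.choose_spec.1 d m
lemma cp_of_mem {d : D} {m : M.M} (h : m ∈ M.gr d) : M.cp d m = m :=
  M.exists_cp.choose_spec.2.1 d m h
lemma cp_of_mem_ne {d e : D} {m : M.M} (h : m ∈ M.gr e) (hd : d ≠ e) : M.cp d m = 0 :=
  M.exists_cp.choose_spec.2.2 d e m h hd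
lemma exists_sum_cp (m : M.M) : ∃ s : Finset D, ∑ d ∈ s, M.cp d m = m ∧ ∀ d ∉ s, M.cp d m = 0 := by
  classical
  induction m using gr_ind with
  | h d m hm =>
    exact ⟨{d}, by rw [Finset.sum_singleton, M.cp_of_mem hm],
      fun e he => M.cp_of_mem_ne hm (by simpa using he)⟩
  | ha m n hm hn =>
    obtain ⟨s, h1, h2⟩ := hm
    obtain ⟨t, h3, h4⟩ := hn
    refine ⟨s ∪ t, ?_, fun d hd => ?_⟩
    · simp only [map_add, Finset.sum_add_distrib]
      rw [← Finset.sum_subset Finset.subset_union_left fun d _ hd => h2 d hd,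
        ← Finset.sum_subset Finset.subset_union_right fun d _ hd => h4 d hd, h1, h3]
    · rw [Finset.notMem_union] at hd
      rw [map_add, h2 d hd.1, h4 d hd.2, add_zero]
lemma eq_zero_of_cp {m : M.M} (h : ∀ d, M.cp d m = 0) : m = 0 := by
  obtain ⟨s, h1, -⟩ := M.exists_sum_cp m
  rw [← h1]; exact Finset.sum_eq_zero fun d _ => h d
lemma cp_g (d : D) (m : M.M) : M.cp d (M.g m) = chi d • M.cp d m := by
  induction m using gr_ind with
  | h e m hm =>
    rw [mem_gr.1 hm, ← c_smul, map_smul]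
    by_cases h : d = e
    · rw [h]
    · rw [M.cp_of_mem_ne hm h, smul_zero, smul_zero]
  | ha m n hm hn => simp only [map_add, hm, hn, smul_add]
lemma g_inj : Function.Injective M.g := (injective_iff_map_eq_zero M.g).2 fun m hm =>
  M.eq_zero_of_cp fun d => by
    have := M.cp_g d m
    rw [hm, map_zero] at this
    exact (smul_eq_zero.1 this.symm).resolve_left (chi_ne d)
lemma smul_mem_gr {d e : D} {r : R} {m : M.M} (hr : Hmg d r) (hm : m ∈ M.gr e) :
    r • m ∈ M.gr (d + e) := by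
  rw [mem_gr, LinearMap.map_smulₛₗ, show gam r = _ from hr, mem_gr.1 hm, chi_add, map_mul,
    smul_smul, smul_smul]
  congr 1; ring
lemma cp_smul {d : D} {r : R} (hr : Hmg d r) (e : D) (m : M.M) :
    M.cp (d + e) (r • m) = r • M.cp e m := by
  induction m using gr_ind with
  | h e' m hm =>
    by_cases h : e = e'
    · subst h; rw [M.cp_of_mem hm, M.cp_of_mem (M.smul_mem_gr hr hm)]
    · rw [M.cp_of_mem_ne hm h, smul_zero,
        M.cp_of_mem_ne (M.smul_mem_gr hr hm) fun h' => h (add_left_cancel h')]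
  | ha m n hm hn => simp only [smul_add, map_add, hm, hn]
lemma cp_smul' {e : D} {m : M.M} (hm : m ∈ M.gr e) (d : D) (r : R) :
    M.cp (d + e) (r • m) = hc d r • m := by
  induction r using hmg_ind with
  | h d' r hr =>
    by_cases h : d = d'
    · subst h; rw [hc_of_hmg hr, M.cp_of_mem (M.smul_mem_gr hr hm)]
    · rw [hc_of_hmg_ne hr h, zero_smul,
        M.cp_of_mem_ne (M.smul_mem_gr hr hm) fun h' => h (add_right_cancel h')]
  | ha r s hr hs => simp only [add_smul, map_add, hr, hs]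
/-- a `g`-stable `ℂ`-subspace is graded -/
lemma cp_mem_of_stab {N : Submodule ℂ M.M} (hN : ∀ m ∈ N, M.g m ∈ N) {m : M.M} (hm : m ∈ N)
    (d : D) : M.cp d m ∈ N := by
  obtain ⟨s, h1, h2⟩ := M.exists_sum_cp m
  by_cases hd : d ∈ s
  · exact mem_of_sum_eig M.gC N hN s chi chi_inj.injOn (fun d => M.cp d m)
      (fun e _ => M.cp_mem e m) (h1.symm ▸ hm) d hd
  · rw [h2 d hd]; exact N.zero_mem
variable {M}
lemma Stab.cp_mem {N : Submodule R M.M} (hN : M.Stab N) {m : M.M} (hm : m ∈ N) (d : D) :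
    M.cp d m ∈ N := M.cp_mem_of_stab (N := N.restrictScalars ℂ) hN hm d
lemma mem_of_cp_mem {N : Submodule R M.M} {m : M.M} (h : ∀ d, M.cp d m ∈ N) : m ∈ N := by
  obtain ⟨s, h1, -⟩ := M.exists_sum_cp m
  rw [← h1]; exact N.sum_mem fun d _ => h d
lemma Stab.mem_of_g_mem {N : Submodule R M.M} (hN : M.Stab N) {m : M.M} (hm : M.g m ∈ N) :
    m ∈ N := mem_of_cp_mem fun d => by
  have := hN.cp_mem hm d
  rw [cp_g] at this
  exact ((N.restrictScalars ℂ).smul_mem_iff (chi_ne d)).1 this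
lemma Deg0.map_gr {N : GM} {f : M.M →ₗ[R] N.M} (hf : Deg0 f) {d : D} {m : M.M}
    (hm : m ∈ M.gr d) : f m ∈ N.gr d := by
  rw [mem_gr, ← hf, mem_gr.1 hm, map_smul]
lemma Deg0.map_cp {N : GM} {f : M.M →ₗ[R] N.M} (hf : Deg0 f) (d : D) (m : M.M) :
    f (M.cp d m) = N.cp d (f m) := by
  induction m using gr_ind with
  | h e m hm =>
    by_cases h : d = e
    · subst h; rw [M.cp_of_mem hm, N.cp_of_mem (hf.map_gr hm)]
    · rw [M.cp_of_mem_ne hm h, N.cp_of_mem_ne (hf.map_gr hm) h, map_zero]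
  | ha m n hm hn => simp only [map_add, hm, hn]
lemma deg0_of_gr {N : GM} {f : M.M →ₗ[R] N.M} (hf : ∀ d, ∀ m ∈ M.gr d, f m ∈ N.gr d) : Deg0 f :=
  fun m => by
    induction m using gr_ind with
    | h d m hm => rw [mem_gr.1 hm, mem_gr.1 (hf d m hm), map_smul]
    | ha m n hm hn => simp only [map_add, hm, hn]
/-- a graded submodule has finitely many homogeneous generators -/
lemma Stab.exists_gens {N : Submodule R M.M} (hN : M.Stab N) :
    ∃ (n : ℕ) (d : Fin n → D) (m : Fin n → M.M), (∀ i, m i ∈ M.gr (d i)) ∧ (∀ i, m i ≠ 0) ∧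
      Submodule.span R (Set.range m) = N := by
  classical
  have e : Submodule.span R {m | m ∈ N ∧ m ≠ 0 ∧ ∃ d, m ∈ M.gr d} = N := by
    refine le_antisymm (Submodule.span_le.2 fun m hm => hm.1) fun m hm => mem_of_cp_mem fun d => ?_
    by_cases h : M.cp d m = 0
    · rw [h]; exact zero_mem _
    · exact Submodule.subset_span ⟨hN.cp_mem hm d, h, d, M.cp_mem d m⟩
  obtain ⟨F, hF, hsp⟩ := (Submodule.fg_span_iff_fg_span_finset_subset _).1
    (e.symm ▸ IsNoetherian.noetherian N)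
  choose d hd using fun j : Fin F.card => (hF (F.equivFin.symm j).2).2.2
  refine ⟨F.card, d, fun j => (F.equivFin.symm j).1, hd, fun j => (hF (F.equivFin.symm j).2).2.1, ?_⟩
  rw [← e, hsp]
  congr 1
  ext m
  exact ⟨by rintro ⟨j, rfl⟩; exact (F.equivFin.symm j).2,
    fun hm => ⟨F.equivFin ⟨m, hm⟩, by simp⟩⟩
lemma stab_top : M.Stab ⊤ := fun _ _ => trivial
lemma stab_bot : M.Stab ⊥ := fun m hm => by
  rw [(Submodule.mem_bot R).1 hm, map_zero]; exact zero_mem _
lemma Stab.inf {N N' : Submodule R M.M} (h : M.Stab N) (h' : M.Stab N') : M.Stab (N ⊓ N') :=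
  fun m hm => ⟨h m hm.1, h' m hm.2⟩
lemma Stab.sup {N N' : Submodule R M.M} (h : M.Stab N) (h' : M.Stab N') : M.Stab (N ⊔ N') := fun m hm => by
  obtain ⟨a, ha, b, hb, rfl⟩ := Submodule.mem_sup.1 hm
  rw [map_add]; exact Submodule.add_mem_sup (h a ha) (h' b hb)
lemma Stab.smul {J : Ideal R} (hJ : ∀ r ∈ J, gam r ∈ J) {N : Submodule R M.M} (h : M.Stab N) :
    M.Stab (J • N) := fun m hm => by
  refine Submodule.smul_induction_on hm (fun r hr n hn => ?_) fun a b ha hb => ?_
  · rw [LinearMap.map_smulₛₗ]; exact Submodule.smul_mem_smul (hJ r hr) (h n hn)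
  · rw [map_add]; exact add_mem ha hb
lemma stab_span {s : Set M.M} (hs : ∀ m ∈ s, ∃ d, m ∈ M.gr d) : M.Stab (Submodule.span R s) :=
  fun m hm => by
    induction hm using Submodule.span_induction with
    | mem m hm =>
      obtain ⟨d, hd⟩ := hs m hm
      rw [mem_gr.1 hd]; exact Submodule.smul_mem _ _ (Submodule.subset_span hm)
    | zero => rw [map_zero]; exact zero_mem _
    | add a b _ _ ha hb => rw [map_add]; exact add_mem ha hb
    | smul r a _ ha => rw [LinearMap.map_smulₛₗ]; exact Submodule.smul_mem _ _ ha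
lemma Deg0.stab_map {N : GM} {f : M.M →ₗ[R] N.M} (hf : Deg0 f) {P : Submodule R M.M}
    (hP : M.Stab P) : N.Stab (P.map f) := by
  rintro _ ⟨m, hm, rfl⟩; exact ⟨_, hP m hm, hf m⟩
lemma Deg0.stab_comap {N : GM} {f : M.M →ₗ[R] N.M} (hf : Deg0 f) {P : Submodule R N.M}
    (hP : N.Stab P) : M.Stab (P.comap f) := fun m hm => by
  rw [Submodule.mem_comap, hf]; exact hP _ hm
lemma Deg0.stab_ker {N : GM} {f : M.M →ₗ[R] N.M} (hf : Deg0 f) : M.Stab (LinearMap.ker f) :=
  hf.stab_comap stab_bot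
lemma Deg0.stab_range {N : GM} {f : M.M →ₗ[R] N.M} (hf : Deg0 f) :
    N.Stab (LinearMap.range f) := by
  rintro _ ⟨m, rfl⟩; exact ⟨_, hf m⟩
lemma gam_mem_ann {r : R} (h : r ∈ Module.annihilator R M.M) :
    gam r ∈ Module.annihilator R M.M := Module.mem_annihilator.2 fun m => by
  obtain ⟨n, rfl⟩ := M.g_surj m
  rw [← LinearMap.map_smulₛₗ, Module.mem_annihilator.1 h, map_zero]
/-- elementwise vanishing at a point is uniform -/
lemma exists_uniform {N : Submodule R M.M} (P : Submodule R M.M) {x : Pt}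
    (h : ∀ m ∈ N, ∃ r : R, eval x r ≠ 0 ∧ r • m ∈ P) :
    ∃ r : R, eval x r ≠ 0 ∧ ∀ m ∈ N, r • m ∈ P := by
  classical
  obtain ⟨S, rfl⟩ := IsNoetherian.noetherian N
  choose! r h1 h2 using h
  refine ⟨∏ m ∈ S, r m, ?_, fun m hm => ?_⟩
  · rw [map_prod]; exact Finset.prod_ne_zero_iff.2 fun m hm => h1 m (Submodule.subset_span hm)
  clear h1
  induction hm using Submodule.span_induction with
  | mem m hm =>
    rw [← Finset.prod_erase_mul _ _ hm, mul_smul]
    exact P.smul_mem _ (h2 m (Submodule.subset_span hm))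
  | zero => rw [smul_zero]; exact P.zero_mem
  | add a b _ _ ha hb => rw [smul_add]; exact P.add_mem ha hb
  | smul c a _ ha => rw [smul_comm]; exact P.smul_mem _ ha
lemma kill_iff {x : Pt} : M.Kill x ↔ ∀ m : M.M, ∃ r : R, eval x r ≠ 0 ∧ r • m = 0 :=
  ⟨fun ⟨r, h1, h2⟩ m => ⟨r, h1, h2 m⟩, fun h =>
    (exists_uniform (N := ⊤) ⊥ fun m _ => h m).imp fun _ h => ⟨h.1, fun m => h.2 m trivial⟩⟩
/-- variables outside the blocks act by zero -/
lemma DegIn.X_smul {B : Finset ℕ} (h : M.DegIn B) {v : Var} (hv : v.1 ∉ B) (m : M.M) :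
    (X v : R) • m = 0 := by
  induction m using gr_ind with
  | h d m hm =>
    by_cases hd : d ∈ DS B
    · refine (Submodule.mem_bot ℂ).1 (h (vdeg v + d) (fun h' => ?_) ▸ M.smul_mem_gr (Hmg.X v) hm)
      have := h' v.1 hv
      rw [Finsupp.add_apply, hd v.1 hv, vdeg_some] at this
      simp at this
    · rw [show m = 0 from (Submodule.mem_bot ℂ).1 (h d hd ▸ hm), smul_zero]
  | ha m n hm hn => rw [smul_add, hm, hn, add_zero]
lemma DegIn.kill_smul {B : Finset ℕ} (h : M.DegIn B) (r : R) (m : M.M) :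
    N265.kill B r • m = r • m := by
  induction r using MvPolynomial.induction_on generalizing m with
  | C c => simp [N265.kill]
  | add p q hp hq => rw [map_add, add_smul, add_smul, hp, hq]
  | mul_X p v hp =>
    rw [map_mul, mul_smul, mul_smul, hp]
    by_cases hv : v.1 ∈ B
    · simp [N265.kill, hv]
    · simp [N265.kill, hv, h.X_smul hv]
lemma shift_gr (d e : D) : (M.shift d).gr e = M.gr (e + d) := by
  refine Submodule.ext fun m : M.M => ?_
  change chi (-d) • M.g m = chi e • m ↔ M.g m = chi (e + d) • m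
  rw [chi_neg, inv_smul_eq_iff₀ (chi_ne d), smul_smul, chi_add, mul_comm]
end GM

end Crest.Agent.N265
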