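import Crest.Agent.N265.G.Grad

/-! # Task G2: constructions of graded modules -/

set_option autoImplicit false
noncomputable section
open MvPolynomial

namespace Crest.Agent.N265
namespace GM

lemma eq_of_cp {M : GM} {m m' : M.M} (h : ∀ d, M.cp d m = M.cp d m') : m = m' := by
  obtain ⟨s, hs, -⟩ := M.exists_sum_cp (m - m')
  rw [← sub_eq_zero, ← hs]
  exact Finset.sum_eq_zero fun d _ => by rw [map_sub, h d, sub_self]

/-- graded submodule -/
def sub (M : GM) (N : Submodule R M.M) (h : M.Stab N) : GM where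
  M := N
  fin := M.fin.imp fun _ hV v hv m => Subtype.ext (hV v hv m.1)
  g := (M.g.domRestrict N).codRestrict N fun m => h _ m.2
  diag := fun m => by
    obtain ⟨s, hs, -⟩ := M.exists_sum_cp m.1
    have : m = ∑ d ∈ s, (⟨M.cp d m.1, h.cp_mem m.2 d⟩ : N) :=
      Subtype.ext (by rw [AddSubmonoidClass.coe_finsetSum]; exact hs.symm)
    rw [this]
    exact sum_mem fun d _ => AddSubgroup.subset_closure ⟨d, Subtype.ext (M.cp_mem d m.1)⟩
/-- graded quotient -/
def quot (M : GM) (N : Submodule R M.M) (h : M.Stab N) : GM where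
  M := M.M ⧸ N
  fin := M.fin.imp fun _ hV v hv m => by
    induction m using Submodule.Quotient.induction_on with
    | H m => rw [← Submodule.Quotient.mk_smul, hV v hv m, Submodule.Quotient.mk_zero]
  g := N.mapQ N M.g h
  diag := fun q => by
    induction q using Submodule.Quotient.induction_on with
    | H m =>
      obtain ⟨s, hs, -⟩ := M.exists_sum_cp m
      have : (Submodule.Quotient.mk m : M.M ⧸ N) = ∑ d ∈ s, N.mkQ (M.cp d m) := by
        rw [← map_sum, hs]; rfl
      rw [this]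
      refine sum_mem fun d _ => AddSubgroup.subset_closure ⟨d, ?_⟩
      exact congrArg (Submodule.Quotient.mk (p := N)) (M.cp_mem d m)
/-- graded subquotient `N / (N ⊓ P)` -/
def sq (M : GM) (N P : Submodule R M.M) (hN : M.Stab N) (hP : M.Stab P) : GM :=
  (M.sub N hN).quot (P.comap N.subtype) fun _ hm => hP _ hm
/-- the zero module -/
def zero : GM where
  M := PUnit
  fin := ⟨∅, fun _ _ _ => rfl⟩
  g := 0
  diag := fun _ => zero_mem _
/-- direct sum -/
def prod (A B : GM) : GM where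
  M := A.M × B.M
  fin := by
    classical
    obtain ⟨V, hV⟩ := A.fin
    obtain ⟨W, hW⟩ := B.fin
    refine ⟨V ∪ W, fun v hv m => Prod.ext (hV v (fun h => hv ?_) m.1) (hW v (fun h => hv ?_) m.2)⟩
    · exact Finset.mem_union_left _ h
    · exact Finset.mem_union_right _ h
  g := { toFun := fun m => (A.g m.1, B.g m.2)
         map_add' := by intro a b; simp
         map_smul' := by intro r m; simp }
  diag := fun m => by
    obtain ⟨s, hs, -⟩ := A.exists_sum_cp m.1
    obtain ⟨t, ht, -⟩ := B.exists_sum_cp m.2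
    have : m = ∑ d ∈ s, ((A.cp d m.1, 0) : A.M × B.M) + ∑ d ∈ t, ((0, B.cp d m.2) : A.M × B.M) := by
      ext <;> simp [Prod.fst_sum, Prod.snd_sum, hs, ht]
    rw [this]
    refine add_mem (sum_mem fun d _ => AddSubgroup.subset_closure ⟨d, ?_⟩)
      (sum_mem fun d _ => AddSubgroup.subset_closure ⟨d, ?_⟩)
    · exact Prod.ext (A.cp_mem d m.1) (by simp)
    · exact Prod.ext (by simp) (B.cp_mem d m.2)
/-- `⊕ M(deg i)` -/
def pw {ι : Type} [Fintype ι] (deg : ι → D) (M : GM) : GM where
  M := ι → M.M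
  fin := M.fin.imp fun _ hV v hv m => funext fun i => hV v hv (m i)
  g := { toFun := fun m i => (C (chi (-deg i)) : R) • M.g (m i)
         map_add' := by intro a b; funext i; simp
         map_smul' := by
           intro r m; funext i; simp only [Pi.smul_apply, LinearMap.map_smulₛₗ]; rw [smul_comm] }
  diag := fun m => by
    classical
    rw [← Finset.univ_sum_single m]
    refine sum_mem fun i _ => ?_
    obtain ⟨s, hs, -⟩ := M.exists_sum_cp (m i)
    have : (Pi.single i (m i) : ι → M.M) = ∑ d ∈ s, Pi.single i (M.cp d (m i)) := by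
      funext j
      by_cases hj : j = i
      · subst hj; simp [hs]
      · simp [hj]
    rw [this]
    refine sum_mem fun d _ => AddSubgroup.subset_closure ⟨-deg i + d, funext fun j => ?_⟩
    by_cases hj : j = i
    · subst hj
      have := M.cp_mem d (m j)
      rw [mem_gr] at this
      simp only [LinearMap.coe_mk, AddHom.coe_mk, Pi.single_eq_same, Pi.smul_apply, this, chi_add,
        map_mul, mul_smul]
    · simp [hj]
/-- `R ⧸ J` for a stable ideal containing almost all variables -/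
def Oid (J : Ideal R) (hJ : ∀ r ∈ J, gam r ∈ J) (hV : ∃ V : Finset Var, ∀ v ∉ V, (X v : R) ∈ J) :
    GM where
  M := R ⧸ J
  noeth := by
    obtain ⟨V, hV⟩ := hV
    have := noeth_quot J V hV
    have : RingHomSurjective (Ideal.Quotient.mk J) := ⟨Ideal.Quotient.mk_surjective⟩
    let l : (R ⧸ J) →ₛₗ[Ideal.Quotient.mk J] (R ⧸ J) :=
      { toFun := id, map_add' := fun _ _ => rfl, map_smul' := fun _ _ => rfl }
    exact (LinearMap.isNoetherian_iff_of_bijective l Function.bijective_id).2 inferInstance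
  fin := hV.imp fun V hV v hv m => by
    change Ideal.Quotient.mk J (X v) * m = 0
    rw [Ideal.Quotient.eq_zero_iff_mem.2 (hV v hv), zero_mul]
  g := Submodule.mapQ J J
    { toFun := gam, map_add' := map_add gam, map_smul' := fun a b => map_mul gam a b } hJ
  diag := fun q => by
    induction q using Submodule.Quotient.induction_on with
    | H r =>
      obtain ⟨s, hs, -⟩ := exists_sum_hc r
      have : (Submodule.Quotient.mk r : R ⧸ J) = ∑ d ∈ s, Submodule.mkQ J (hc d r) := by
        rw [← map_sum, hs]; rfl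
      rw [this]
      refine sum_mem fun d _ => AddSubgroup.subset_closure ⟨d, ?_⟩
      rw [Submodule.mkQ_apply, Submodule.mapQ_apply, ← Submodule.Quotient.mk_smul]
      exact congrArg _ (hc_hmg d r)
/-- the structure sheaf -/
def O (X : Spc) : GM :=
  Oid X.I (fun _ => X.gam_mem_I) (X.exists_V.imp fun _ h => h.2)

/-- the part of `M` whose degrees live in the blocks `B` -/
def pieceSub (B : Finset ℕ) (M : GM) : AddSubgroup M.M :=
  AddSubgroup.closure {m | ∃ d ∈ DS B, m ∈ M.gr d}
lemma kill_smul_mem {B : Finset ℕ} {M : GM} (r : R) {m : M.M} (hm : m ∈ pieceSub B M) :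
    kill B r • m ∈ pieceSub B M := by
  induction hm using AddSubgroup.closure_induction with
  | mem m hm =>
    obtain ⟨d, hd, hm⟩ := hm
    obtain ⟨s, hs, -⟩ := exists_sum_hc r
    rw [← hs, map_sum, Finset.sum_smul]
    refine sum_mem fun e _ => ?_
    by_cases he : e ∈ DS B
    · exact AddSubgroup.subset_closure
        ⟨e + d, add_mem he hd, M.smul_mem_gr ((hc_hmg e r).kill B) hm⟩
    · rw [(hc_hmg e r).kill_eq_zero he, zero_smul]; exact zero_mem _
  | zero => rw [smul_zero]; exact zero_mem _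
  | add a b _ _ ha hb => rw [smul_add]; exact add_mem ha hb
  | neg a _ ha => rw [smul_neg]; exact neg_mem ha
lemma mem_pieceSub {B : Finset ℕ} {M : GM} {m : M.M} :
    m ∈ pieceSub B M ↔ ∀ d, d ∉ DS B → M.cp d m = 0 := by
  constructor
  · intro hm d hd
    induction hm using AddSubgroup.closure_induction with
    | mem m hm =>
      obtain ⟨e, he, hm⟩ := hm
      exact M.cp_of_mem_ne hm fun h => hd (h ▸ he)
    | zero => exact map_zero _
    | add a b _ _ ha hb => rw [map_add, ha, hb, add_zero]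
    | neg a _ ha => rw [map_neg, ha, neg_zero]
  · intro h
    obtain ⟨s, hs, -⟩ := M.exists_sum_cp m
    rw [← hs]
    refine sum_mem fun d _ => ?_
    by_cases hd : d ∈ DS B
    · exact AddSubgroup.subset_closure ⟨d, hd, M.cp_mem d m⟩
    · rw [h d hd]; exact zero_mem _
lemma cp_mem_pieceSub {B : Finset ℕ} {M : GM} {m : M.M} (hm : m ∈ pieceSub B M) (d : D) :
    M.cp d m ∈ pieceSub B M := by
  by_cases hd : d ∈ DS B
  · exact AddSubgroup.subset_closure ⟨d, hd, M.cp_mem d m⟩
  · rw [mem_pieceSub.1 hm d hd]; exact zero_mem _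
/-- the part of an element in the degrees of `B` -/
lemma exists_pieceSub (B : Finset ℕ) {M : GM} (m : M.M) :
    ∃ m' ∈ pieceSub B M, ∀ d ∈ DS B, M.cp d m' = M.cp d m := by
  classical
  obtain ⟨s, -, hs⟩ := M.exists_sum_cp m
  refine ⟨∑ e ∈ s.filter (· ∈ DS B), M.cp e m, sum_mem fun e he =>
    AddSubgroup.subset_closure ⟨e, (Finset.mem_filter.1 he).2, M.cp_mem e m⟩, fun d hd => ?_⟩
  rw [map_sum, Finset.sum_eq_single d]
  · exact M.cp_of_mem (M.cp_mem d m)
  · exact fun e _ he => M.cp_of_mem_ne (M.cp_mem e m) he.symm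
  · intro h
    rw [hs d fun h' => h (Finset.mem_filter.2 ⟨h', hd⟩), map_zero]
/-- a homogeneous polynomial whose degree lives in `B` only involves the variables of `B` -/
lemma _root_.Crest.Agent.N265.Hmg.kill_eq_self {d : D} {r : R} (h : Hmg d r) {B : Finset ℕ}
    (hd : d ∈ DS B) : N265.kill B r = r := by
  classical
  rw [hmg_iff] at h
  conv_lhs => rw [r.as_sum]
  conv_rhs => rw [r.as_sum]
  rw [map_sum]
  refine Finset.sum_congr rfl fun u hu => ?_
  have hw := h (mem_support_iff.1 hu)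
  rw [N265.kill, aeval_monomial, monomial_eq, algebraMap_eq]
  congr 1
  refine Finsupp.prod_congr fun v hv => ?_
  rw [if_pos]
  by_contra hB
  have h0 : (Finsupp.weight vdeg u) (some v.1) = 0 := by rw [hw]; exact hd _ hB
  rw [Finsupp.weight_apply, Finsupp.sum, Finsupp.finsetSum_apply] at h0
  have h1 := (Finset.sum_eq_zero_iff_of_nonneg (fun w _ => by
    by_cases hw : w.1 = v.1 <;> simp [vdeg, eB, eT, hw])).1 h0 v hv
  simp [vdeg, eB, eT] at h1
  exact Finsupp.mem_support_iff.1 hv h1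
lemma cp_kill_smul {B : Finset ℕ} {M : GM} (r : R) {m : M.M} (hm : m ∈ pieceSub B M) {d : D}
    (hd : d ∈ DS B) : M.cp d (kill B r • m) = M.cp d (r • m) := by
  induction hm using AddSubgroup.closure_induction with
  | mem m hm =>
    obtain ⟨e, he, hm⟩ := hm
    obtain ⟨s, hs, -⟩ := exists_sum_hc r
    rw [← hs, map_sum, Finset.sum_smul, Finset.sum_smul, map_sum, map_sum]
    refine Finset.sum_congr rfl fun f _ => ?_
    by_cases hf : f ∈ DS B
    · rw [(hc_hmg f r).kill_eq_self hf]
    · rw [(hc_hmg f r).kill_eq_zero hf, zero_smul, map_zero,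
        M.cp_of_mem_ne (M.smul_mem_gr (hc_hmg f r) hm)]
      rintro rfl
      exact hf (by simpa using sub_mem hd he)
  | zero => rw [smul_zero, smul_zero]
  | add a b _ _ ha hb => rw [smul_add, smul_add, map_add, map_add, ha, hb]
  | neg a _ ha => rw [smul_neg, smul_neg, map_neg, map_neg, ha]
/-- carrier of the piece, `R` acts through `kill B` -/
def PieceT (B : Finset ℕ) (M : GM) : Type := pieceSub B M
instance (B : Finset ℕ) (M : GM) : AddCommGroup (PieceT B M) :=
  inferInstanceAs (AddCommGroup (pieceSub B M))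
/-- the underlying element -/
def PieceT.val {B : Finset ℕ} {M : GM} (m : PieceT B M) : M.M := Subtype.val m
lemma PieceT.ext {B : Finset ℕ} {M : GM} {m m' : PieceT B M} (h : m.val = m'.val) : m = m' :=
  Subtype.ext h
instance (B : Finset ℕ) (M : GM) : Module R (PieceT B M) where
  smul r m := (⟨kill B r • m.val, kill_smul_mem r (Subtype.property m)⟩ : pieceSub B M)
  one_smul m := PieceT.ext (by change kill B 1 • m.val = _; simp)
  mul_smul a b m := PieceT.ext (by
    change kill B (a * b) • m.val = kill B a • kill B b • m.val; rw [map_mul, mul_smul])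
  smul_zero a := PieceT.ext (by change kill B a • (0 : M.M) = 0; simp)
  smul_add a m n := PieceT.ext (by
    change kill B a • (m.val + n.val) = kill B a • m.val + kill B a • n.val; rw [smul_add])
  add_smul a b m := PieceT.ext (by
    change kill B (a + b) • m.val = kill B a • m.val + kill B b • m.val; rw [map_add, add_smul])
  zero_smul m := PieceT.ext (by change kill B 0 • m.val = 0; simp)
lemma PieceT.val_smul {B : Finset ℕ} {M : GM} (r : R) (m : PieceT B M) :
    (r • m).val = kill B r • m.val := rfl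
lemma g_mem_pieceSub {B : Finset ℕ} {M : GM} {m : M.M} (hm : m ∈ pieceSub B M) :
    M.g m ∈ pieceSub B M := by
  induction hm using AddSubgroup.closure_induction with
  | mem m hm =>
    obtain ⟨d, hd, hm⟩ := hm
    refine AddSubgroup.subset_closure ⟨d, hd, ?_⟩
    rw [mem_gr.1 hm]
    exact (M.gr d).smul_mem (chi d) hm
  | zero => rw [map_zero]; exact zero_mem _
  | add a b _ _ ha hb => rw [map_add]; exact add_mem ha hb
  | neg a _ ha => rw [map_neg]; exact neg_mem ha
lemma PieceT.mem_of_span {B : Finset ℕ} {M : GM} (N : Submodule R (PieceT B M)) {m : PieceT B M}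
    (hm : m.val ∈ Submodule.span R (PieceT.val '' (N : Set (PieceT B M)))) : m ∈ N := by
  have key : ∀ x ∈ Submodule.span R (PieceT.val '' (N : Set (PieceT B M))), ∀ r : R,
      ∃ n ∈ N, ∀ d ∈ DS B, M.cp d n.val = M.cp d (r • x) := by
    intro x hx
    induction hx using Submodule.span_induction with
    | mem x hx =>
      obtain ⟨n, hn, rfl⟩ := hx
      exact fun r => ⟨r • n, N.smul_mem r hn, fun d hd => cp_kill_smul r (Subtype.property n) hd⟩
    | zero => exact fun r => ⟨0, zero_mem _, fun d _ => by rw [smul_zero]; rfl⟩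
    | add a b _ _ ha hb =>
      intro r
      obtain ⟨n, hn, h⟩ := ha r
      obtain ⟨n', hn', h'⟩ := hb r
      refine ⟨n + n', add_mem hn hn', fun d hd => ?_⟩
      rw [smul_add, map_add, ← h d hd, ← h' d hd, ← map_add]; rfl
    | smul c a _ ha => intro r; rw [← mul_smul]; exact ha _
  obtain ⟨n, hn, h⟩ := key _ hm 1
  have : m = n := PieceT.ext (eq_of_cp fun d => by
    by_cases hd : d ∈ DS B
    · rw [h d hd, one_smul]
    · rw [show M.cp d m.val = 0 from mem_pieceSub.1 (Subtype.property m) d hd,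
        show M.cp d n.val = 0 from mem_pieceSub.1 (Subtype.property n) d hd])
  exact this ▸ hn
/-- degree zero part in the blocks outside `B`, as a module over the variables of `B` -/
def piece (B : Finset ℕ) (M : GM) : GM where
  M := PieceT B M
  noeth := by
    rw [isNoetherian_iff']
    refine StrictMono.wellFoundedGT (f := fun N : Submodule R (PieceT B M) =>
      Submodule.span R (PieceT.val '' (N : Set (PieceT B M)))) fun N N' h => ?_
    refine lt_of_le_not_ge (Submodule.span_mono (Set.image_mono h.le)) fun h' => h.not_ge ?_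
    exact fun m hm => PieceT.mem_of_span N (h' (Submodule.subset_span ⟨m, hm, rfl⟩))
  fin := M.fin.imp fun V hV v hv m => PieceT.ext (by
    change kill B (X v) • m.val = 0
    by_cases h : v.1 ∈ B <;> simp [kill, h, hV v hv])
  g := { toFun := fun m => (⟨M.g m.val, g_mem_pieceSub (Subtype.property m)⟩ : pieceSub B M)
         map_add' := fun a b => PieceT.ext (map_add M.g a.val b.val)
         map_smul' := fun r m => PieceT.ext (by
           change M.g (kill B r • m.val) = kill B (gam r) • M.g m.val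
           rw [LinearMap.map_smulₛₗ, gam_kill]) }
  diag := fun m => by
    obtain ⟨s, hs, -⟩ := M.exists_sum_cp m.val
    have : m = ∑ d ∈ s, (⟨M.cp d m.val, cp_mem_pieceSub (Subtype.property m) d⟩ : pieceSub B M) :=
      Subtype.ext (by rw [AddSubmonoidClass.coe_finsetSum]; exact hs.symm)
    rw [this]
    refine sum_mem fun d _ => AddSubgroup.subset_closure ⟨d, PieceT.ext ?_⟩
    change M.g (M.cp d m.val) = kill B (C (chi d)) • M.cp d m.val
    rw [M.cp_mem d m.val]; simp [kill]

variable {M : GM}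
lemma sub_gr {N : Submodule R M.M} (h : M.Stab N) {d : D} {m : N} :
    (m : (M.sub N h).M) ∈ (M.sub N h).gr d ↔ m.1 ∈ M.gr d := Subtype.ext_iff
lemma quot_gr {N : Submodule R M.M} (h : M.Stab N) {d : D} {q : M.M ⧸ N} :
    (q : (M.quot N h).M) ∈ (M.quot N h).gr d ↔ ∃ m ∈ M.gr d, Submodule.Quotient.mk m = q := by
  have hf : Deg0 (M := M) (N := M.quot N h) N.mkQ := fun _ => rfl
  constructor
  · intro hq
    obtain ⟨m, rfl⟩ := Submodule.Quotient.mk_surjective N q
    exact ⟨M.cp d m, M.cp_mem d m, (hf.map_cp d m).trans ((M.quot N h).cp_of_mem hq)⟩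
  · rintro ⟨m, hm, rfl⟩
    exact hf.map_gr hm
lemma pw_gr {ι : Type} [Fintype ι] (deg : ι → D) {d : D} {m : ι → M.M} :
    (m : (pw deg M).M) ∈ (pw deg M).gr d ↔ ∀ i, m i ∈ M.gr (d + deg i) := by
  refine funext_iff.trans (forall_congr' fun i => ?_)
  rw [← shift_gr]; rfl
lemma prod_gr {A B : GM} {d : D} {m : A.M × B.M} :
    (m : (prod A B).M) ∈ (prod A B).gr d ↔ m.1 ∈ A.gr d ∧ m.2 ∈ B.gr d := Prod.ext_iff
lemma piece_gr {B : Finset ℕ} {d : D} {m : PieceT B M} :
    (m : (piece B M).M) ∈ (piece B M).gr d ↔ m.val ∈ M.gr d := by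
  refine Subtype.ext_iff.trans ?_
  change M.g m.val = kill B (C (chi d)) • m.val ↔ _
  rw [mem_gr]; simp [kill]
lemma Oid_gr {J : Ideal R} (hJ hV) {d : D} {q : R ⧸ J} :
    (q : (Oid J hJ hV).M) ∈ (Oid J hJ hV).gr d ↔ ∃ r, Hmg d r ∧ Ideal.Quotient.mk J r = q := by
  have key : ∀ (e : D) (r : R), Hmg e r →
      (Ideal.Quotient.mk J r : (Oid J hJ hV).M) ∈ (Oid J hJ hV).gr e := fun e r hr =>
    congrArg (Ideal.Quotient.mk J) hr
  constructor
  · intro hq
    obtain ⟨r, rfl⟩ := Ideal.Quotient.mk_surjective q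
    refine ⟨hc d r, hc_hmg d r, ?_⟩
    have h1 := (Oid J hJ hV).cp_smul' (key 0 1 Hmg.one) d r
    have h2 : ∀ s : R, s • (Ideal.Quotient.mk J 1 : R ⧸ J) = Ideal.Quotient.mk J s :=
      fun s => congrArg (Ideal.Quotient.mk J) (mul_one s)
    rw [add_zero] at h1
    exact (h2 _).symm.trans (h1.symm.trans
      ((congrArg ((Oid J hJ hV).cp d) (h2 r)).trans ((Oid J hJ hV).cp_of_mem hq)))
  · rintro ⟨r, hr, rfl⟩
    exact key d r hr

lemma deg0_subtype {N : Submodule R M.M} (h : M.Stab N) :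
    Deg0 (M := M.sub N h) (N := M) N.subtype := fun _ => rfl
lemma deg0_mkQ {N : Submodule R M.M} (h : M.Stab N) :
    Deg0 (M := M) (N := M.quot N h) N.mkQ := fun _ => rfl
lemma ses_sub_quot {N : Submodule R M.M} (h : M.Stab N) : SES (M.sub N h) M (M.quot N h) :=
  ⟨N.subtype, N.mkQ, deg0_subtype h, deg0_mkQ h, Subtype.val_injective,
    LinearMap.exact_subtype_mkQ N, Submodule.mkQ_surjective N⟩
lemma ses_prod (A B : GM) : SES A (prod A B) B :=
  ⟨LinearMap.inl R A.M B.M, LinearMap.snd R A.M B.M, fun _ => Prod.ext rfl (map_zero B.g).symm,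
    fun _ => rfl, LinearMap.inl_injective, Function.Exact.inl_snd, LinearMap.snd_surjective⟩
lemma Deg0.shift {A B : GM} {f : A.M →ₗ[R] B.M} (hf : Deg0 f) (d : D) :
    Deg0 (M := A.shift d) (N := B.shift d) f := fun m =>
  (f.map_smul (C (chi (-d)) : R) (A.g m)).trans (congrArg _ (hf m))
/-- a degree zero map induces a map of pieces -/
def pieceMap {A B : GM} (S : Finset ℕ) (f : A.M →ₗ[R] B.M) (hf : Deg0 f) :
    (piece S A).M →ₗ[R] (piece S B).M where
  toFun m := (⟨f (PieceT.val m), mem_pieceSub.2 fun d hd => by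
    rw [← hf.map_cp, show A.cp d (PieceT.val m) = 0 from
      mem_pieceSub.1 (Subtype.property m) d hd, map_zero]⟩ : pieceSub S B)
  map_add' a b := PieceT.ext (map_add f (PieceT.val a) (PieceT.val b))
  map_smul' r a := PieceT.ext (f.map_smul (kill S r) (PieceT.val a))
lemma pieceMap_val {A B : GM} (S : Finset ℕ) (f : A.M →ₗ[R] B.M) (hf : Deg0 f)
    (m : PieceT S A) : PieceT.val (pieceMap S f hf m) = f m.val := rfl
lemma deg0_pieceMap {A B : GM} (S : Finset ℕ) (f : A.M →ₗ[R] B.M) (hf : Deg0 f) :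
    Deg0 (pieceMap S f hf) := fun m => PieceT.ext (hf (PieceT.val m))
/-- preimages of elements of the piece can be taken in the piece -/
lemma exists_pieceMap_eq {A B : GM} (S : Finset ℕ) (f : A.M →ₗ[R] B.M) (hf : Deg0 f)
    (b : PieceT S B) {a : A.M} (h : f a = b.val) : ∃ a' : PieceT S A, pieceMap S f hf a' = b := by
  obtain ⟨a', ha', h'⟩ := exists_pieceSub S a
  refine ⟨(⟨a', ha'⟩ : pieceSub S A), PieceT.ext (eq_of_cp fun d => ?_)⟩
  change B.cp d (f a') = _
  rw [← hf.map_cp]
  by_cases hd : d ∈ DS S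
  · rw [h' d hd, hf.map_cp, h]
  · rw [mem_pieceSub.1 ha' d hd, map_zero]
    exact (mem_pieceSub.1 (Subtype.property b) d hd).symm
lemma SES.shift {A B C : GM} (h : SES A B C) (d : D) :
    SES (A.shift d) (B.shift d) (C.shift d) := by
  obtain ⟨f, p, hf, hp, h⟩ := h
  exact ⟨f, p, hf.shift d, hp.shift d, h⟩
lemma SES.piece {A B C : GM} (h : SES A B C) (S : Finset ℕ) :
    SES (piece S A) (piece S B) (piece S C) := by
  obtain ⟨f, p, hf, hp, hi, he, hs⟩ := h
  refine ⟨pieceMap S f hf, pieceMap S p hp, deg0_pieceMap S f hf, deg0_pieceMap S p hp,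
    fun a b h => PieceT.ext (hi (congrArg PieceT.val h)), fun b => ⟨fun hb => ?_, ?_⟩, fun c => ?_⟩
  · obtain ⟨a, ha⟩ := (he (PieceT.val b)).1 (congrArg PieceT.val hb)
    exact exists_pieceMap_eq S f hf b ha
  · rintro ⟨a, rfl⟩
    exact PieceT.ext (he.apply_apply_eq_zero (PieceT.val a))
  · obtain ⟨b, hb⟩ := hs (PieceT.val c)
    exact exists_pieceMap_eq S p hp c hb
lemma SES.locSES {A B C : GM} (h : SES A B C) (X : Spc) : LocSES X A B C := by
  obtain ⟨f, p, hf, hp, hi, he, hs⟩ := h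
  refine ⟨f, p, hf, hp, he.apply_apply_eq_zero, fun x _ => ⟨1, by simp, fun a ha => ?_,
    fun b hb => ?_, fun c => ?_⟩⟩
  · rw [one_smul]; exact hi (ha.trans (map_zero f).symm)
  · rw [one_smul]; exact (he b).1 hb
  · rw [one_smul]; exact hs c
lemma LocSES.shift {X : Spc} {A B C : GM} (h : LocSES X A B C) (d : D) :
    LocSES X (A.shift d) (B.shift d) (C.shift d) := by
  obtain ⟨f, p, hf, hp, h⟩ := h
  exact ⟨f, p, hf.shift d, hp.shift d, h⟩

/-- a polynomial matrix of degree zero acts `⊕ M(a i) → ⊕ M(b j)` -/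
def mat {ι κ : Type} [Fintype ι] [Fintype κ] (a : ι → D) (b : κ → D) (Φ : Matrix κ ι R) (M : GM) :
    (pw a M).M →ₗ[R] (pw b M).M where
  toFun m j := ∑ i, Φ j i • (m : ι → M.M) i
  map_add' a b := funext fun j => by
    change ∑ i, Φ j i • ((a : ι → M.M) i + (b : ι → M.M) i) = _
    simp only [smul_add, Finset.sum_add_distrib]; rfl
  map_smul' r a := funext fun j => by
    change ∑ i, Φ j i • r • (a : ι → M.M) i = r • ∑ i, Φ j i • (a : ι → M.M) i
    rw [Finset.smul_sum]
    exact Finset.sum_congr rfl fun i _ => smul_comm _ _ _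
lemma deg0_mat {ι κ : Type} [Fintype ι] [Fintype κ] {a : ι → D} {b : κ → D} {Φ : Matrix κ ι R}
    (h : MHmg a b Φ) (M : GM) : Deg0 (mat a b Φ M) := by
  refine deg0_of_gr fun d m hm => (pw_gr b).2 fun j => ?_
  refine sum_mem fun i _ => ?_
  have := M.smul_mem_gr (h j i) ((pw_gr a).1 hm i)
  rwa [show b j - a i + (d + a i) = d + b j by abel] at this

section inherit
variable {X : Spc} {A B : GM}
lemma DegIn.of_inj {S : Finset ℕ} {f : A.M →ₗ[R] B.M} (hf : Deg0 f) (hi : Function.Injective f)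
    (h : B.DegIn S) : A.DegIn S := fun d hd => eq_bot_iff.2 fun m hm => by
  have := hf.map_gr hm
  rw [h d hd, Submodule.mem_bot] at this
  exact hi (this.trans (map_zero f).symm)
lemma DegIn.of_surj {S : Finset ℕ} {f : A.M →ₗ[R] B.M} (hf : Deg0 f) (hi : Function.Surjective f)
    (h : A.DegIn S) : B.DegIn S := fun d hd => eq_bot_iff.2 fun m hm => by
  obtain ⟨a, rfl⟩ := hi m
  have := A.cp_mem d a
  rw [h d hd, Submodule.mem_bot] at this
  rw [← B.cp_of_mem hm, ← hf.map_cp, this, map_zero]; exact zero_mem _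
lemma On.of_inj {f : A.M →ₗ[R] B.M} (hf : Deg0 f) (hi : Function.Injective f) (h : B.On X) :
    A.On X :=
  ⟨h.deg.of_inj hf hi, fun x hx hn => (h.supp x hx hn).imp fun r hr =>
    ⟨hr.1, fun m => hi (by rw [map_smul, hr.2, map_zero])⟩⟩
lemma On.of_surj {f : A.M →ₗ[R] B.M} (hf : Deg0 f) (hi : Function.Surjective f) (h : A.On X) :
    B.On X :=
  ⟨h.deg.of_surj hf hi, fun x hx hn => (h.supp x hx hn).imp fun r hr =>
    ⟨hr.1, fun m => by obtain ⟨a, rfl⟩ := hi m; rw [← map_smul, hr.2, map_zero]⟩⟩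
lemma Red.of_inj {f : A.M →ₗ[R] B.M} (hf : Deg0 f) (hi : Function.Injective f) (h : B.Red X) :
    A.Red X :=
  ⟨h.deg.of_inj hf hi, fun r hr m => hi (by rw [map_smul, h.ann r hr, map_zero])⟩
lemma Red.of_surj {f : A.M →ₗ[R] B.M} (hf : Deg0 f) (hi : Function.Surjective f) (h : A.Red X) :
    B.Red X :=
  ⟨h.deg.of_surj hf hi, fun r hr m => by
    obtain ⟨a, rfl⟩ := hi m; rw [← map_smul, h.ann r hr, map_zero]⟩
lemma On.sub (h : M.On X) {N : Submodule R M.M} (hN : M.Stab N) : (M.sub N hN).On X :=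
  h.of_inj (deg0_subtype hN) Subtype.val_injective
lemma On.quot (h : M.On X) {N : Submodule R M.M} (hN : M.Stab N) : (M.quot N hN).On X :=
  h.of_surj (deg0_mkQ hN) (Submodule.mkQ_surjective N)
lemma Red.sub (h : M.Red X) {N : Submodule R M.M} (hN : M.Stab N) : (M.sub N hN).Red X :=
  h.of_inj (deg0_subtype hN) Subtype.val_injective
lemma Red.quot (h : M.Red X) {N : Submodule R M.M} (hN : M.Stab N) : (M.quot N hN).Red X :=
  h.of_surj (deg0_mkQ hN) (Submodule.mkQ_surjective N)
lemma On.of_ses {C : GM} (h : SES A B C) (hA : A.On X) (hC : C.On X) : B.On X := by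
  obtain ⟨f, p, hf, hp, -, he, -⟩ := h
  refine ⟨fun d hd => eq_bot_iff.2 fun m hm => ?_, fun x hx hn => ?_⟩
  · have h1 := hp.map_gr hm
    rw [hC.deg d hd, Submodule.mem_bot] at h1
    obtain ⟨a, rfl⟩ := (he m).1 h1
    have := A.cp_mem d a
    rw [hA.deg d hd, Submodule.mem_bot] at this
    rw [← B.cp_of_mem hm, ← hf.map_cp, this, map_zero]; exact zero_mem _
  · obtain ⟨r, hr, h⟩ := hA.supp x hx hn
    obtain ⟨s, hs, h'⟩ := hC.supp x hx hn
    refine ⟨r * s, by rw [map_mul]; exact mul_ne_zero hr hs, fun m => ?_⟩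
    obtain ⟨a, ha⟩ := (he (s • m)).1 (by rw [map_smul, h'])
    rw [mul_smul, ← ha, ← map_smul, h, map_zero]
lemma On.zero : zero.On X :=
  ⟨fun _ _ => eq_bot_iff.2 fun _ _ => rfl, fun _ _ _ => ⟨1, by simp, fun _ => rfl⟩⟩
lemma Red.zero : zero.Red X := ⟨On.zero.deg, fun _ _ _ => rfl⟩
lemma Irr.zero : zero.Irr X := fun _ _ => ⟨1, by simp, fun _ => rfl⟩
lemma On.prod (hA : A.On X) (hB : B.On X) : (prod A B).On X := On.of_ses (ses_prod A B) hA hB
lemma Red.prod (hA : A.Red X) (hB : B.Red X) : (prod A B).Red X :=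
  ⟨(hA.on.prod hB.on).deg, fun r hr m => Prod.ext (hA.ann r hr m.1) (hB.ann r hr m.2)⟩
lemma DegIn.shift {S : Finset ℕ} (h : M.DegIn S) {d : D} (hd : d ∈ DS S) : (M.shift d).DegIn S :=
  fun e he => by
    rw [shift_gr]
    exact h _ fun h' => he (by simpa using sub_mem h' hd)
lemma DegIn.pw {S : Finset ℕ} {ι : Type} [Fintype ι] {deg : ι → D} (hd : ∀ i, deg i ∈ DS S)
    (h : M.DegIn S) : (pw deg M).DegIn S := fun e he => eq_bot_iff.2 fun m hm => funext fun i => by
  have := (pw_gr deg).1 hm i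
  rw [h _ fun h' => he (by simpa using sub_mem h' (hd i)), Submodule.mem_bot] at this
  exact this
lemma On.shift (h : M.On X) {d : D} (hd : d ∈ DS X.B) : (M.shift d).On X :=
  ⟨h.deg.shift hd, h.supp⟩
lemma Red.shift (h : M.Red X) {d : D} (hd : d ∈ DS X.B) : (M.shift d).Red X :=
  ⟨h.deg.shift hd, h.ann⟩
lemma Irr.shift (h : M.Irr X) (d : D) : (M.shift d).Irr X := h
lemma On.pw {ι : Type} [Fintype ι] {deg : ι → D} (hd : ∀ i, deg i ∈ DS X.B) (h : M.On X) :
    (pw deg M).On X :=
  ⟨h.deg.pw hd, fun x hx hn => (h.supp x hx hn).imp fun _ hr =>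
    ⟨hr.1, fun m => funext fun i => hr.2 (m i)⟩⟩
lemma Red.pw {ι : Type} [Fintype ι] {deg : ι → D} (hd : ∀ i, deg i ∈ DS X.B) (h : M.Red X) :
    (pw deg M).Red X :=
  ⟨h.deg.pw hd, fun r hr m => funext fun i => h.ann r hr (m i)⟩
lemma red_O (X : Spc) : (O X).Red X := by
  refine ⟨fun d hd => eq_bot_iff.2 fun q hq => ?_, fun r hr m => ?_⟩
  · obtain ⟨r, hr, rfl⟩ := (Oid_gr _ _).1 hq
    refine Ideal.Quotient.eq_zero_iff_mem.2 fun x hx => ?_
    rw [← X.restr_eq hx, ← eval_kill, hr.kill_eq_zero hd, map_zero]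
  · have : ∀ q : R ⧸ X.I, r • q = 0 := fun q => by
      change Ideal.Quotient.mk X.I r * q = 0
      rw [Ideal.Quotient.eq_zero_iff_mem.2 hr, zero_mul]
    exact this m
lemma On.mono {Z : Spc} (hZ : Z.Sub X) (h : M.On Z) : M.On X :=
  ⟨hZ.1 ▸ h.deg, fun x hx hn => h.supp x (hZ.1 ▸ hx) fun h' => hn (hZ.2 h')⟩
lemma Red.mono {Z : Spc} (hZ : Z.Sub X) (h : M.Red Z) : M.Red X :=
  ⟨hZ.1 ▸ h.deg, fun r hr => h.ann r fun x hx => hr x (hZ.2 hx)⟩
lemma Irr.mono {Z : Spc} (hZ : Z.Sub X) (h : M.On Z) (hi : M.Irr Z) : M.Irr X :=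
  fun x hx => by
    by_cases h' : x ∈ Z.pts
    · exact hi x h'
    · exact h.supp x (hZ.1 ▸ X.rel x hx) h'
lemma degIn_piece (S : Finset ℕ) (M : GM) : (piece S M).DegIn S :=
  fun d hd => eq_bot_iff.2 fun m hm => PieceT.ext (by
    rw [← M.cp_of_mem (piece_gr.1 hm)]
    exact mem_pieceSub.1 (Subtype.property m) d hd)
lemma Red.piece {Y : Spc} (hp : Proj Y X) (h : ∀ r ∈ Y.I, ∀ m : M.M, r • m = 0) :
    (piece X.B M).Red X :=
  ⟨degIn_piece _ _, fun r hr m => PieceT.ext (h (kill X.B r)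
    (fun y hy => by rw [eval_kill]; exact hr _ (hp.map y hy)) (PieceT.val m))⟩
end inherit
end GM

end Crest.Agent.N265
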