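import Crest.Agent.N265.Core

/-! # Push-forward, part A: the group ring of degrees and limits of recurrent functions (helper39) -/

set_option autoImplicit false
noncomputable section

namespace Crest.Agent.N265.PA

/-- the group ring of the degrees -/
abbrev Lm : Type := AddMonoidAlgebra ℤ D
/-- the basis element of a degree -/
def xd (d : D) : Lm := AddMonoidAlgebra.single d 1
lemma xd_add (d e : D) : xd (d + e) = xd d * xd e := by
  simp [xd, AddMonoidAlgebra.single_mul_single]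
lemma xd_zero : xd 0 = 1 := rfl
lemma xd_sum {ι : Type*} (s : Finset ι) (d : ι → D) : xd (∑ i ∈ s, d i) = ∏ i ∈ s, xd (d i) := by
  classical
  induction s using Finset.induction_on with
  | empty => simp [xd_zero]
  | insert i s hi ih => rw [Finset.sum_insert hi, Finset.prod_insert hi, xd_add, ih]

/-- the representation of the group ring attached to an action of `D` -/
def rho {N : Type*} [AddCommGroup N] (τ : D → N →+ N) (h0 : ∀ n, τ 0 n = n)
    (ha : ∀ d e n, τ (d + e) n = τ d (τ e n)) : Lm →ₐ[ℤ] Module.End ℤ N :=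
  AddMonoidAlgebra.lift ℤ (Module.End ℤ N) D
    { toFun := fun d => (τ d.toAdd).toIntLinearMap
      map_one' := LinearMap.ext h0
      map_mul' := fun d e => LinearMap.ext (ha d.toAdd e.toAdd) }
lemma rho_xd {N : Type*} [AddCommGroup N] (τ : D → N →+ N) (h0 ha) (d : D) (n : N) :
    rho τ h0 ha (xd d) n = τ d n := by
  rw [rho, xd, AddMonoidAlgebra.lift_single, one_smul]; rfl

/-- combinations of degrees living in the blocks `S` that are at least `κ` -/
def W (S : Finset ℕ) (κ : ℕ → ℤ) : AddSubgroup Lm :=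
  AddSubgroup.closure (xd '' {d | d ∈ DS S ∧ ∀ b ∈ S, κ b ≤ d (some b)})
variable {S : Finset ℕ}
lemma xd_mem {κ : ℕ → ℤ} {d : D} (h : d ∈ DS S) (h' : ∀ b ∈ S, κ b ≤ d (some b)) : xd d ∈ W S κ :=
  AddSubgroup.subset_closure ⟨d, ⟨h, h'⟩, rfl⟩
lemma W_ind {κ : ℕ → ℤ} {P : Lm → Prop}
    (hx : ∀ d ∈ DS S, (∀ b ∈ S, κ b ≤ d (some b)) → P (xd d)) (h0 : P 0)
    (hadd : ∀ a b, P a → P b → P (a + b)) (hneg : ∀ a, P a → P (-a)) {c : Lm} (hc : c ∈ W S κ) :
    P c := by
  induction hc using AddSubgroup.closure_induction with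
  | mem c hc => obtain ⟨d, hd, rfl⟩ := hc; exact hx d hd.1 hd.2
  | zero => exact h0
  | add a b _ _ ha hb => exact hadd a b ha hb
  | neg a _ ha => exact hneg a ha
lemma W_mono {κ κ' : ℕ → ℤ} (h : ∀ b ∈ S, κ' b ≤ κ b) {c : Lm} (hc : c ∈ W S κ) : c ∈ W S κ' :=
  AddSubgroup.closure_mono (by
    rintro _ ⟨d, hd, rfl⟩
    exact ⟨d, ⟨hd.1, fun b hb => (h b hb).trans (hd.2 b hb)⟩, rfl⟩) hc
lemma W_mul {κ κ' : ℕ → ℤ} {c c' : Lm} (hc : c ∈ W S κ) (hc' : c' ∈ W S κ') :
    c * c' ∈ W S (κ + κ') := by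
  refine W_ind (P := fun c => c * c' ∈ W S (κ + κ')) (fun d hd hκ => ?_) (by simp)
    (fun a b ha hb => by rw [add_mul]; exact add_mem ha hb)
    (fun a ha => by rw [neg_mul]; exact neg_mem ha) hc
  refine W_ind (P := fun c' => xd d * c' ∈ W S (κ + κ')) (fun e he hκ' => ?_) (by simp)
    (fun a b ha hb => by rw [mul_add]; exact add_mem ha hb)
    (fun a ha => by rw [mul_neg]; exact neg_mem ha) hc'
  rw [← xd_add]
  exact xd_mem (add_mem hd he) fun b hb => add_le_add (hκ b hb) (hκ' b hb)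
lemma one_mem_W : (1 : Lm) ∈ W S 0 := xd_mem (zero_mem _) fun _ _ => le_rfl
lemma W_prod {ι : Type*} (s : Finset ι) {κ : ι → ℕ → ℤ} {c : ι → Lm}
    (h : ∀ i ∈ s, c i ∈ W S (κ i)) : ∏ i ∈ s, c i ∈ W S (∑ i ∈ s, κ i) := by
  classical
  induction s using Finset.induction_on with
  | empty => simpa using one_mem_W
  | insert i s hi ih =>
    rw [Finset.sum_insert hi, Finset.prod_insert hi]
    exact W_mul (h i (by simp)) (ih fun j hj => h j (by simp [hj]))

lemma vdeg_apply (v : Var) (b : ℕ) : vdeg v (some b) = if v.1 = b then 1 else 0 := by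
  by_cases h : v.1 = b <;> simp [vdeg, eB, eT, h]

/-- the Koszul element of a set of variables -/
def kos (V : Finset Var) : Lm := ∏ v ∈ V, (1 - xd (vdeg v))
lemma one_sub_kos_mem {b : ℕ} (hb : b ∈ S) (V : Finset Var) (hV : ∀ v ∈ V, v.1 = b) :
    1 - kos V ∈ W S (Pi.single b 1) := by
  classical
  induction V using Finset.induction_on with
  | empty => simp [kos]
  | insert v V hv ih =>
    have h1 := ih fun w hw => hV w (by simp [hw])
    have hvb : v.1 = b := hV v (by simp)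
    have h2 : xd (vdeg v) ∈ W S (Pi.single b 1) :=
      xd_mem (vdeg_mem (hvb ▸ hb)) fun c _ => by
        rw [vdeg_apply, hvb, Pi.single_apply]
        split_ifs <;> omega
    have h3 : kos V ∈ W S 0 := by
      have := sub_mem one_mem_W (W_mono (κ' := 0) (fun c _ => by
        rw [Pi.single_apply]; split_ifs <;> simp) h1)
      simpa using this
    have h4 := W_mul h2 h3
    rw [add_zero] at h4
    have : 1 - kos (insert v V) = (1 - kos V) + xd (vdeg v) * kos V := by
      rw [kos, Finset.prod_insert hv, ← kos]; ring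
    rw [this]
    exact add_mem h1 h4

/-- the raising element of the block `b` -/
def ub (V : Finset Var) (b : ℕ) : Lm := 1 - kos (V.filter fun v => v.1 = b)
lemma ub_mem {b : ℕ} (hb : b ∈ S) (V : Finset Var) : ub V b ∈ W S (Pi.single b 1) :=
  one_sub_kos_mem hb _ fun _ hv => (Finset.mem_filter.1 hv).2
lemma ub_mem_zero {b : ℕ} (hb : b ∈ S) (V : Finset Var) : ub V b ∈ W S 0 :=
  W_mono (fun c _ => by rw [Pi.single_apply]; split_ifs <;> simp) (ub_mem hb V)
lemma kos_mem_zero {b : ℕ} (hb : b ∈ S) (V : Finset Var) :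
    kos (V.filter fun v => v.1 = b) ∈ W S 0 := by
  simpa [ub] using sub_mem one_mem_W (ub_mem_zero hb V)
/-- the raising element -/
def U (S : Finset ℕ) (V : Finset Var) : Lm := ∏ b ∈ S, ub V b
lemma U_mem (V : Finset Var) : U S V ∈ W S fun _ => 1 :=
  W_mono (fun b hb => by simp [Finset.sum_apply, Pi.single_apply, hb])
    (W_prod S fun _ hb => ub_mem hb V)
lemma U_pow_mem (V : Finset Var) (k : ℕ) : U S V ^ k ∈ W S fun _ => k := by
  induction k with
  | zero => exact W_mono (fun _ _ => by simp) one_mem_W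
  | succ k ih => rw [pow_succ]; exact W_mono (fun _ _ => by simp) (W_mul ih (U_mem V))

lemma one_sub_U {N : Type*} [AddCommGroup N] (ρ : Lm →ₐ[ℤ] Module.End ℤ N) (E : AddSubgroup N)
    (hE : ∀ c ∈ W S 0, ∀ n ∈ E, ρ c n ∈ E) (V : Finset Var) {n : N}
    (h : ∀ b ∈ S, ρ (kos (V.filter fun v => v.1 = b)) n ∈ E) : ρ (1 - U S V) n ∈ E := by
  have key : ∀ T ⊆ S, ρ (1 - ∏ b ∈ T, ub V b) n ∈ E := by
    intro T hT
    induction T using Finset.induction_on with
    | empty => simp
    | insert b T hb ih =>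
      have hbS : b ∈ S := hT (by simp)
      have : 1 - ∏ c ∈ insert b T, ub V c =
          kos (V.filter fun v => v.1 = b) + ub V b * (1 - ∏ c ∈ T, ub V c) := by
        rw [Finset.prod_insert hb, ub]; ring
      rw [this, map_add, map_mul]
      exact add_mem (h b hbS) (hE _ (ub_mem_zero hbS V) _ (ih fun c hc => hT (by simp [hc])))
  exact key S subset_rfl

/-! ### functions of the degree -/

variable {A : Type*} [AddCommGroup A]
/-- translation of functions -/
def tr (d : D) : (D → A) →+ (D → A) where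
  toFun f e := f (e + d)
  map_zero' := rfl
  map_add' _ _ := rfl
/-- the action on functions -/
def rhoF (A : Type*) [AddCommGroup A] : Lm →ₐ[ℤ] Module.End ℤ (D → A) :=
  rho tr (fun f => funext fun e => congrArg f (add_zero e))
    fun d e f => funext fun c => congrArg f (add_assoc c d e).symm
lemma rhoF_xd (d : D) (f : D → A) : rhoF A (xd d) f = fun e => f (e + d) := rho_xd _ _ _ d f
/-- all coordinates in `S` are at least `k` -/
def Bg (S : Finset ℕ) (k : ℤ) (d : D) : Prop := ∀ b ∈ S, k ≤ d (some b)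
lemma Bg.mono {k k' : ℤ} {d : D} (h : Bg S k d) (hk : k' ≤ k) : Bg S k' d :=
  fun b hb => hk.trans (h b hb)
lemma exists_bg (S : Finset ℕ) (d : D) : ∃ k, Bg S k d := by
  obtain ⟨k, hk⟩ := (S.image fun b => d (some b)).finite_toSet.bddBelow
  exact ⟨k, fun b hb => hk (by simpa using ⟨b, hb, rfl⟩)⟩
lemma rhoF_van {j k : ℤ} {c : Lm} (hc : c ∈ W S fun _ => j) {f : D → A}
    (hf : ∀ d, Bg S k d → f d = 0) {d : D} (hd : Bg S (k - j) d) : rhoF A c f d = 0 := by
  refine W_ind (P := fun c => rhoF A c f d = 0) (fun e _ he => ?_) (by simp)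
    (fun a b ha hb => by simp [ha, hb]) (fun a ha => by simp [ha]) hc
  rw [rhoF_xd]
  exact hf _ fun b hb => by
    have h1 := hd b hb
    have h2 := he b hb
    rw [Finsupp.add_apply]; omega
lemma rhoF_comp {A' : Type*} [AddCommGroup A'] (φ : A →+ A') {κ : ℕ → ℤ} {c : Lm}
    (hc : c ∈ W S κ) (f : D → A) (d : D) : rhoF A' c (fun e => φ (f e)) d = φ (rhoF A c f d) :=
  W_ind (P := fun c => rhoF A' c (fun e => φ (f e)) d = φ (rhoF A c f d))
    (fun e _ _ => by rw [rhoF_xd, rhoF_xd]) (by simp)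
    (fun a b ha hb => by simp [ha, hb]) (fun a ha => by simp [ha]) hc
/-- functions vanishing in high degrees -/
def Ev0 (S : Finset ℕ) (A : Type*) [AddCommGroup A] : AddSubgroup (D → A) where
  carrier := {f | ∃ k, ∀ d, Bg S k d → f d = 0}
  zero_mem' := ⟨0, fun _ _ => rfl⟩
  add_mem' := by
    rintro f g ⟨k, hk⟩ ⟨j, hj⟩
    exact ⟨max k j, fun d hd => by
      rw [Pi.add_apply, hk d (hd.mono (le_max_left _ _)), hj d (hd.mono (le_max_right _ _)),
        add_zero]⟩
  neg_mem' := by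
    rintro f ⟨k, hk⟩
    exact ⟨k, fun d hd => by rw [Pi.neg_apply, hk d hd, neg_zero]⟩
lemma rhoF_ev0 {c : Lm} (hc : c ∈ W S 0) {f : D → A} (hf : f ∈ Ev0 S A) : rhoF A c f ∈ Ev0 S A := by
  obtain ⟨k, hk⟩ := hf
  exact ⟨k, fun d hd => rhoF_van (j := 0) hc hk (by simpa using hd)⟩

/-- the value at `0` of the extension to all degrees of a function that is recurrent in high
degrees -/
theorem exists_lim (S : Finset ℕ) (V : Finset Var) (A : Type*) [AddCommGroup A] :
    ∃ L : (D → A) → A,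
      (∀ f g h, rhoF A (1 - U S V) g ∈ Ev0 S A → rhoF A (1 - U S V) h ∈ Ev0 S A →
        f - (g + h) ∈ Ev0 S A → L f = L g + L h) ∧
      (∀ f ∈ Ev0 S A, L f = 0) ∧
      (∀ f, rhoF A (1 - U S V) f ∈ Ev0 S A → ∃ k, ∀ d, Bg S k d → L (fun e => f (e + d)) = f d) ∧
      ∀ (φ : A →+ A) f g, rhoF A (1 - U S V) f ∈ Ev0 S A → g - (fun e => φ (f e)) ∈ Ev0 S A →
        L g = φ (L f) := by
  classical
  let P : (D → A) → A → Prop := fun f a => ∃ k₀ : ℕ, ∀ k ≥ k₀, rhoF A (U S V ^ k) f 0 = a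
  have huniq : ∀ f a a', P f a → P f a' → a = a' := by
    rintro f a a' ⟨k, hk⟩ ⟨j, hj⟩
    rw [← hk (max k j) (le_max_left _ _), hj (max k j) (le_max_right _ _)]
  have hL : ∀ f a, P f a → (if h : ∃ a, P f a then h.choose else 0) = a := fun f a h => by
    rw [dif_pos ⟨a, h⟩]
    exact huniq f _ _ (Exists.choose_spec ⟨a, h⟩) h
  have hstep : ∀ (f : D → A) (k₀ : ℤ), (∀ d, Bg S k₀ d → rhoF A (1 - U S V) f d = 0) →
      ∀ (j : ℕ) d, Bg S (k₀ - j) d → ∀ k ≥ j, rhoF A (U S V ^ k) f d = rhoF A (U S V ^ j) f d := by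
    intro f k₀ hf j d hd k hk
    induction k, hk using Nat.le_induction with
    | base => rfl
    | succ k hk ih =>
      have h1 := rhoF_van (U_pow_mem V k) hf (hd.mono (k' := k₀ - k) (by omega))
      rw [← Module.End.mul_apply, ← map_mul, mul_sub, mul_one, ← pow_succ, map_sub,
        LinearMap.sub_apply, Pi.sub_apply, sub_eq_zero] at h1
      rw [← h1, ih]
  have hex : ∀ f, rhoF A (1 - U S V) f ∈ Ev0 S A → ∃ a, P f a := by
    rintro f ⟨k₀, hk⟩
    exact ⟨_, k₀.toNat, hstep f k₀ hk k₀.toNat 0 fun b _ => by simp⟩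
  have hev : ∀ f ∈ Ev0 S A, P f 0 := by
    rintro f ⟨k₀, hk⟩
    exact ⟨k₀.toNat, fun k hk' => rhoF_van (U_pow_mem V k) hk fun b _ => by simp; omega⟩
  have hadd : ∀ f g a b, P f a → P g b → P (f + g) (a + b) := by
    rintro f g a b ⟨k, hk⟩ ⟨j, hj⟩
    exact ⟨max k j, fun i hi => by
      rw [map_add, Pi.add_apply, hk i (le_of_max_le_left hi), hj i (le_of_max_le_right hi)]⟩
  refine ⟨fun f => if h : ∃ a, P f a then h.choose else 0, fun f g h hg hh hf => ?_,
    fun f hf => hL f 0 (hev f hf), ?_, fun φ f g hf hg => ?_⟩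
  · obtain ⟨a, ha⟩ := hex g hg
    obtain ⟨b, hb⟩ := hex h hh
    have := hadd _ _ _ _ (hev _ hf) (hadd _ _ _ _ ha hb)
    rw [sub_add_cancel, zero_add] at this
    simp only [hL _ _ this, hL _ _ ha, hL _ _ hb]
  · rintro f ⟨k₀, hk⟩
    refine ⟨k₀, fun d hd => hL _ _ ⟨0, fun k _ => ?_⟩⟩
    have h1 := hstep f k₀ hk 0 d (by simpa using hd) k (Nat.zero_le k)
    rw [← rhoF_xd, ← Module.End.mul_apply, ← map_mul, mul_comm, map_mul, Module.End.mul_apply,
      rhoF_xd]
    simpa using h1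
  · obtain ⟨a, k, hk⟩ := hex f hf
    have h1 : P (fun e => φ (f e)) (φ a) :=
      ⟨k, fun i hi => by rw [rhoF_comp φ (U_pow_mem V i), hk i hi]⟩
    have := hadd _ _ _ _ (hev _ hg) h1
    rw [sub_add_cancel, zero_add] at this
    simp only [hL _ _ this, hL _ _ ⟨k, hk⟩]

end Crest.Agent.N265.PA
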