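import Crest.Agent.N265.G.Mod
import Crest.Agent.N265.G.PushA
import Crest.Agent.N265.Sp.Elim

/-! # Push-forward, part T: tails of graded modules and elimination (helper39) -/

set_option autoImplicit false
noncomputable section
open MvPolynomial

namespace Crest.Agent.N265
open GM PA

lemma rad_pow_le (J : Ideal R) (V : Finset Var) (hV : ∀ v ∉ V, (X v : R) ∈ J) :
    ∃ n : ℕ, J.radical ^ n ≤ J := by
  have := noeth_quot J V hV
  obtain ⟨n, hn⟩ := IsNoetherianRing.isNilpotent_nilradical (R ⧸ J)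
  refine ⟨n, ?_⟩
  have h1 : J.radical.map (Ideal.Quotient.mk J) ≤ nilradical (R ⧸ J) := by
    rw [Ideal.map_le_iff_le_comap]
    rintro r ⟨k, hk⟩
    exact ⟨k, by rw [← map_pow]; exact Ideal.Quotient.eq_zero_iff_mem.2 hk⟩
  have h2 : (J.radical ^ n).map (Ideal.Quotient.mk J) = ⊥ := by
    rw [Ideal.map_pow, eq_bot_iff]
    exact (Ideal.pow_right_mono h1 n).trans hn.le
  rwa [Ideal.map_eq_bot_iff_le_ker, Ideal.mk_ker] at h2

lemma chain_stab (J : ℕ → Ideal R) (hJ : Monotone J) (V : Finset Var)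
    (hV : ∀ v ∉ V, (X v : R) ∈ J 0) : ∃ n, ∀ m, J m ≤ J n := by
  have := noeth_quot (J 0) V hV
  obtain ⟨n, hn⟩ := monotone_stabilizes_iff_noetherian.2 (inferInstance : IsNoetherian (R ⧸ J 0) _)
    ⟨fun k => (J k).map (Ideal.Quotient.mk (J 0)), fun a b h => Ideal.map_mono (hJ h)⟩
  refine ⟨n, fun m => ?_⟩
  rcases le_total m n with h | h
  · exact hJ h
  intro r hr
  have h1 : Ideal.Quotient.mk (J 0) r ∈ (J n).map (Ideal.Quotient.mk (J 0)) := by
    have h2 : (J n).map (Ideal.Quotient.mk (J 0)) = (J m).map (Ideal.Quotient.mk (J 0)) := hn m h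
    rw [h2]
    exact Ideal.mem_map_of_mem _ hr
  rw [← Ideal.mem_comap, Ideal.comap_map_of_surjective _ Ideal.Quotient.mk_surjective,
    ← RingHom.ker_eq_comap_bot, Ideal.mk_ker, sup_eq_left.2 (hJ (Nat.zero_le n))] at h1
  exact h1

/-- the ideal of the variables of a block -/
def blkI (b : ℕ) : Ideal R := Ideal.span ((X : Var → R) '' {v | v.1 = b})

lemma X_mem_blkI (v : Var) : (X v : R) ∈ blkI v.1 :=
  Ideal.subset_span (show (X v : R) ∈ (X : Var → R) '' {w | w.1 = v.1} from ⟨v, rfl, rfl⟩)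

lemma monomial_mem_blk (S : Finset ℕ) (u : Var →₀ ℕ) :
    (monomial u 1 : R) ∈ ∏ b ∈ S, blkI b ^ (Finsupp.weight vdeg u (some b)).toNat ∧
      ∀ b, 0 ≤ Finsupp.weight vdeg u (some b) := by
  classical
  induction u using Finsupp.induction_linear with
  | zero =>
    refine ⟨?_, by simp⟩
    rw [Finset.prod_eq_one fun b _ => by simp, Ideal.one_eq_top]
    exact Submodule.mem_top
  | add u w hu hw =>
    refine ⟨?_, fun b => by rw [map_add, Finsupp.add_apply]; exact add_nonneg (hu.2 b) (hw.2 b)⟩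
    rw [show (monomial (u + w) 1 : R) = monomial u 1 * monomial w 1 by
      rw [monomial_mul, one_mul]]
    have := Ideal.mul_mem_mul hu.1 hw.1
    rw [← Finset.prod_mul_distrib] at this
    convert this using 2 with b
    rw [← pow_add, map_add, Finsupp.add_apply, Int.toNat_add (hu.2 b) (hw.2 b)]
  | single v n =>
    have h1 : ∀ b, Finsupp.weight vdeg (Finsupp.single v n) (some b) =
        if v.1 = b then (n : ℤ) else 0 := fun b => by
      rw [Finsupp.weight_single, Finsupp.smul_apply, vdeg_apply]; split_ifs <;> simp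
    refine ⟨?_, fun b => by rw [h1]; split_ifs <;> simp⟩
    by_cases hv : v.1 ∈ S
    · rw [Finset.prod_eq_single_of_mem v.1 hv fun b _ hb => by simp [h1, hb.symm], h1, if_pos rfl,
        ← X_pow_eq_monomial, Int.toNat_natCast]
      exact Ideal.pow_mem_pow (X_mem_blkI v) n
    · rw [Finset.prod_eq_one fun b hb => by
        rw [h1, if_neg (fun e : v.1 = b => hv (e ▸ hb))]; simp]
      simp

/-- homogeneous polynomials of high degree lie in a high power of the irrelevant ideal -/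
lemma Hmg.mem_blk_pow {d : D} {r : R} (h : Hmg d r) {S : Finset ℕ} {n : ℕ} (hd : Bg S n d) :
    r ∈ (∏ b ∈ S, blkI b) ^ n := by
  rw [r.as_sum]
  refine sum_mem fun u hu => ?_
  have hw : Finsupp.weight vdeg u = d := hmg_iff.1 h (mem_support_iff.1 hu)
  have h1 := (monomial_mem_blk S u).1
  rw [hw] at h1
  rw [show (MvPolynomial.monomial u (coeff u r) : R) =
      MvPolynomial.C (coeff u r) * MvPolynomial.monomial u 1 by
    rw [C_mul_monomial, mul_one], ← Finset.prod_pow]
  have h2 : ∏ b ∈ S, blkI b ^ (d (some b)).toNat ≤ ∏ b ∈ S, blkI b ^ n :=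
    Finset.prod_le_prod' fun b hb => Ideal.pow_le_pow_right (by have := hd b hb; omega)
  exact Ideal.mul_mem_left _ _ (h2 h1)

namespace GM
variable {M : GM}

lemma cp_smul_eq_zero {e : D} (r : R) {m : M.M}
    (h : ∀ f, hc f r = 0 ∨ M.cp (e - f) m = 0) : M.cp e (r • m) = 0 := by
  obtain ⟨s, hs, -⟩ := exists_sum_hc r
  rw [← hs, Finset.sum_smul, map_sum]
  refine Finset.sum_eq_zero fun f _ => ?_
  have := M.cp_smul (hc_hmg f r) (e - f) m
  rw [add_sub_cancel] at this
  rw [this]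
  rcases h f with h | h <;> simp [h]

/-- the part of `M` in degrees that are at least `k` in all blocks of `S` -/
def tl (M : GM) (S : Finset ℕ) (k : ℤ) : Submodule R M.M where
  carrier := {m | ∀ e, ¬ Bg S k e → M.cp e m = 0}
  add_mem' := by intro a b ha hb e he; rw [map_add, ha e he, hb e he, add_zero]
  zero_mem' := fun e _ => map_zero _
  smul_mem' := by
    intro r m hm e he
    refine cp_smul_eq_zero r fun f => ?_
    by_cases h0 : ∃ b, f (some b) < 0
    · obtain ⟨b, hb⟩ := h0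
      exact Or.inl ((hc_hmg f r).eq_zero_of_neg hb)
    · push Not at h0
      refine Or.inr (hm _ fun h => he fun b hb => ?_)
      have h1 := h b hb
      have h2 := h0 b
      rw [Finsupp.sub_apply] at h1
      omega
variable {S : Finset ℕ} {k : ℤ}
lemma mem_tl {m : M.M} : m ∈ M.tl S k ↔ ∀ e, ¬ Bg S k e → M.cp e m = 0 := Iff.rfl
lemma mem_tl_of_gr {e : D} {m : M.M} (hm : m ∈ M.gr e) (he : Bg S k e) : m ∈ M.tl S k :=
  fun _ hf => M.cp_of_mem_ne hm fun h => hf (h ▸ he)
lemma tl_anti {k' : ℤ} (h : k ≤ k') : M.tl S k' ≤ M.tl S k :=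
  fun _ hm e he => hm e fun h' => he (h'.mono h)
lemma tl_ind {P : M.M → Prop} (h0 : P 0) (hadd : ∀ a b, P a → P b → P (a + b))
    (hgr : ∀ e, Bg S k e → ∀ m ∈ M.gr e, m ∈ M.tl S k → P m) {m : M.M} (hm : m ∈ M.tl S k) :
    P m := by
  obtain ⟨s, hs, -⟩ := M.exists_sum_cp m
  rw [← hs]
  refine Finset.sum_induction _ P hadd h0 fun e _ => ?_
  by_cases he : Bg S k e
  · exact hgr e he _ (M.cp_mem e m) (mem_tl_of_gr (M.cp_mem e m) he)
  · rw [hm e he]; exact h0
lemma exists_trunc (S : Finset ℕ) (k : ℤ) (m : M.M) :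
    ∃ m' ∈ M.tl S k, ∀ e, Bg S k e → M.cp e m' = M.cp e m := by
  classical
  obtain ⟨s, -, hs⟩ := M.exists_sum_cp m
  refine ⟨∑ e ∈ s.filter (Bg S k), M.cp e m, sum_mem fun e he =>
    mem_tl_of_gr (M.cp_mem e m) (Finset.mem_filter.1 he).2, fun d hd => ?_⟩
  rw [map_sum, Finset.sum_eq_single d]
  · exact M.cp_of_mem (M.cp_mem d m)
  · exact fun e _ he => M.cp_of_mem_ne (M.cp_mem e m) he.symm
  · intro h
    rw [hs d fun h' => h (Finset.mem_filter.2 ⟨h', hd⟩), map_zero]

lemma exists_tl_le (M : GM) (S : Finset ℕ) :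
    ∃ c : ℤ, ∀ n : ℕ, M.tl S (c + n) ≤ (∏ b ∈ S, blkI b) ^ n • ⊤ := by
  obtain ⟨l, d, g, hg, -, hsp⟩ := (stab_top (M := M)).exists_gens
  obtain ⟨c, hc'⟩ := (Set.finite_range fun p : Fin l × S => d p.1 (some p.2.1)).bddAbove
  refine ⟨c, fun n m hm => tl_ind (P := fun m => m ∈ (∏ b ∈ S, blkI b) ^ n • (⊤ : Submodule R M.M))
    (zero_mem _) (fun a b => add_mem) (fun e he m hm _ => ?_) hm⟩
  obtain ⟨r, hr⟩ := (Submodule.mem_span_range_iff_exists_fun R).1 (hsp.ge (Submodule.mem_top (x := m)))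
  rw [← M.cp_of_mem hm, ← hr, map_sum]
  refine sum_mem fun i _ => ?_
  have := M.cp_smul' (hg i) (e - d i) (r i)
  rw [sub_add_cancel] at this
  rw [this]
  refine Submodule.smul_mem_smul ((hc_hmg _ _).mem_blk_pow fun b hb => ?_) Submodule.mem_top
  have h1 : d i (some b) ≤ c := hc' ⟨(i, ⟨b, hb⟩), rfl⟩
  have h2 := he b hb
  rw [Finsupp.sub_apply]
  omega

/-- elimination at one point -/
lemma exists_kill_tl (M : GM) {B S : Finset ℕ} (hBS : ∀ b ∈ S, b ∉ B) (x : Pt)
    (h : ∀ y : Pt, (∀ v : Var, v.1 ∈ B → y v = x v) → Rel S y → M.Kill y) :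
    ∃ (k : ℤ) (r : R), eval x r ≠ 0 ∧ ∀ m ∈ M.tl S k, N265.kill B r • m = 0 := by
  obtain ⟨V, hV⟩ := M.fin
  set mB : Ideal R := Ideal.span ((fun v => (X v : R) - C (x v)) '' {v | v.1 ∈ B}) with hmB
  set J : Ideal R := Module.annihilator R M.M ⊔ mB with hJ
  have hVJ : ∀ v ∉ V, (X v : R) ∈ J := fun v hv =>
    Ideal.mem_sup_left (Module.mem_annihilator.2 (hV v hv))
  have hrad : ∏ b ∈ S, blkI b ≤ J.radical := fun r hr => nss J V hVJ fun y hy => by
    by_cases hrel : Rel S y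
    · obtain ⟨s, hs, hs'⟩ := h y (fun v hv => by
        have := hy _ (Ideal.mem_sup_right (Ideal.subset_span ⟨v, hv, rfl⟩))
        simpa [sub_eq_zero] using this) hrel
      exact absurd (hy s (Ideal.mem_sup_left (Module.mem_annihilator.2 hs'))) hs
    · simp only [Rel, not_forall, not_exists, not_and, not_not] at hrel
      obtain ⟨b, hb, hb'⟩ := hrel
      have h1 : blkI b ≤ mx y := Ideal.span_le.2 (by
        rintro _ ⟨v, hv, rfl⟩
        exact mem_mx.2 (by rw [eval_X]; exact hb' v hv))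
      exact h1 ((Ideal.prod_le_inf.trans (Finset.inf_le hb)) hr)
  obtain ⟨n, hn⟩ := rad_pow_le J V hVJ
  obtain ⟨c, hc'⟩ := M.exists_tl_le S
  have h1 : M.tl S (c + n) ≤ mB • ⊤ := by
    refine (hc' n).trans ((Submodule.smul_mono_left ((Ideal.pow_right_mono hrad n).trans hn)).trans ?_)
    rw [hJ, Submodule.sup_smul]
    refine sup_le (Submodule.smul_le.2 fun r hr m _ => ?_) le_rfl
    rw [Module.mem_annihilator.1 hr m]; exact zero_mem _
  have h2 : ∀ a ∈ mB, ∀ m : M.M, ∃ m' ∈ mB • M.tl S (c + n), ∀ e, Bg S (c + n) e →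
      M.cp e m' = M.cp e (a • m) := by
    intro a ha
    induction ha using Submodule.span_induction with
    | mem a ha =>
      obtain ⟨v, hv, rfl⟩ := ha
      intro m
      obtain ⟨m', hm', he⟩ := exists_trunc S (c + n) m
      refine ⟨(X v - C (x v) : R) • m', Submodule.smul_mem_smul
        (Ideal.subset_span ⟨v, hv, rfl⟩) hm', fun e hb => ?_⟩
      have hb' : Bg S (c + n) (e - vdeg v) := fun b hbS => by
        rw [Finsupp.sub_apply, vdeg_apply, if_neg (fun e : v.1 = b => hBS b hbS (e ▸ hv)), sub_zero]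
        exact hb b hbS
      have key : ∀ m : M.M, M.cp e ((X v - C (x v) : R) • m) =
          (X v : R) • M.cp (e - vdeg v) m - x v • M.cp e m := fun m => by
        have := M.cp_smul (Hmg.X v) (e - vdeg v) m
        rw [add_sub_cancel] at this
        rw [sub_smul, map_sub, this, ← c_smul, map_smul]
      rw [key, key, he e hb, he _ hb']
    | zero => exact fun m => ⟨0, zero_mem _, fun e _ => by rw [zero_smul]⟩
    | add a b _ _ ha hb =>
      intro m
      obtain ⟨p, hp, h3⟩ := ha m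
      obtain ⟨q, hq, h4⟩ := hb m
      exact ⟨p + q, add_mem hp hq, fun e he => by rw [add_smul, map_add, map_add, h3 e he, h4 e he]⟩
    | smul r a _ ha =>
      intro m
      rw [smul_eq_mul, mul_comm, mul_smul]
      exact ha _
  have h3 : M.tl S (c + n) ≤ mB • M.tl S (c + n) := by
    intro m hm
    have h4 : ∃ m' ∈ mB • M.tl S (c + n), ∀ e, Bg S (c + n) e → M.cp e m' = M.cp e m := by
      refine Submodule.smul_induction_on (h1 hm) (fun a ha m _ => h2 a ha m) ?_
      rintro a b ⟨p, hp, h3⟩ ⟨q, hq, h4⟩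
      exact ⟨p + q, add_mem hp hq, fun e he => by rw [map_add, map_add, h3 e he, h4 e he]⟩
    obtain ⟨m', hm', he⟩ := h4
    have : m' = m := eq_of_cp fun e => by
      by_cases hb : Bg S (c + n) e
      · exact he e hb
      · rw [hm e hb, Submodule.smul_le_right hm' e hb]
    exact this ▸ hm'
  obtain ⟨r, hr, hr'⟩ := Submodule.exists_sub_one_mem_and_smul_eq_zero_of_fg_of_le_smul mB _
    (IsNoetherian.noetherian (M.tl S (c + n))) h3
  refine ⟨c + n, N265.kill B r, ?_, fun m hm => ?_⟩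
  · have h4 : mB ≤ mx (restr B x) := Ideal.span_le.2 (by
      rintro _ ⟨v, hv, rfl⟩
      exact mem_mx.2 (by simp [restr, show v.1 ∈ B from hv]))
    have h5 := mem_mx.1 (h4 hr)
    rw [map_sub, map_one, sub_eq_zero] at h5
    rw [eval_kill, h5]; exact one_ne_zero
  · rw [Sp.kill_kill, Finset.inter_self]
    refine tl_ind (P := fun m => N265.kill B r • m = 0) (smul_zero _)
      (fun a b ha hb => by rw [smul_add, ha, hb, add_zero]) (fun e _ m hme hm => ?_) hm
    obtain ⟨s, hs, -⟩ := exists_sum_hc r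
    rw [← hs, map_sum, Finset.sum_smul]
    refine Finset.sum_eq_zero fun f _ => ?_
    by_cases hf : f ∈ DS B
    · rw [(hc_hmg f r).kill_eq_self hf, ← M.cp_smul' hme, hr' m hm, map_zero]
    · rw [(hc_hmg f r).kill_eq_zero hf, zero_smul]

/-- elimination, uniformly in the point -/
lemma exists_kill_tl_unif (M : GM) {B S : Finset ℕ} (hBS : ∀ b ∈ S, b ∉ B) :
    ∃ k : ℤ, ∀ x : Pt, (∀ y : Pt, (∀ v : Var, v.1 ∈ B → y v = x v) → Rel S y → M.Kill y) →
      ∃ r : R, eval x r ≠ 0 ∧ ∀ m ∈ M.tl S k, N265.kill B r • m = 0 := by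
  obtain ⟨V, hV⟩ := M.fin
  obtain ⟨n, hn⟩ := chain_stab (fun k : ℕ => ((M.tl S k).annihilator).comap (N265.kill B))
    (fun a b hab => Ideal.comap_mono (Submodule.annihilator_mono (tl_anti (by exact_mod_cast hab))))
    V fun v hv => Ideal.mem_comap.2 (Submodule.mem_annihilator.2 fun m _ => by
      by_cases h : v.1 ∈ B <;> simp [h, hV v hv])
  refine ⟨n, fun x hx => ?_⟩
  obtain ⟨k, r, hr, h⟩ := M.exists_kill_tl hBS x hx
  exact ⟨r, hr, Submodule.mem_annihilator.1 (Ideal.mem_comap.1 (hn k.toNat (Ideal.mem_comap.2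
    (Submodule.mem_annihilator.2 fun m hm => h m (tl_anti (Int.self_le_toNat k) hm)))))⟩

lemma piece_val_mem_tl {B : Finset ℕ} (hBS : ∀ b ∈ S, b ∉ B) {d : D} (hd : Bg S k d)
    (m : PieceT B (M.shift d)) : (show M.M from m.val) ∈ M.tl S k := by
  have hm : m.val ∈ pieceSub B (M.shift d) := Subtype.property m
  generalize m.val = a at hm
  induction hm using AddSubgroup.closure_induction with
  | mem a ha =>
    obtain ⟨e, he, ha⟩ := ha
    rw [shift_gr] at ha
    exact mem_tl_of_gr ha fun b hb => by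
      rw [Finsupp.add_apply, he b (hBS b hb), zero_add]; exact hd b hb
  | zero => exact zero_mem _
  | add a b _ _ ha hb => exact add_mem ha hb
  | neg a _ ha => exact neg_mem ha

/-- high pieces are killed at the points with empty fibre -/
lemma exists_kill_piece {Y : Spc} (hM : M.On Y) (B : Finset ℕ) :
    ∃ k : ℤ, ∀ d, Bg (Y.B \ B) k d → ∀ x, Rel B x →
      (∀ y ∈ Y.pts, restr B y = restr B x → M.Kill y) → (piece B (M.shift d)).Kill x := by
  have hBS : ∀ b ∈ Y.B \ B, b ∉ B := fun b hb => (Finset.mem_sdiff.1 hb).2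
  obtain ⟨k, hk⟩ := M.exists_kill_tl_unif hBS
  refine ⟨k, fun d hd x hx h => ?_⟩
  obtain ⟨r, hr, hr'⟩ := hk x fun y hy hrel => by
    by_cases hY : y ∈ Y.pts
    · exact h y hY (funext fun v => by by_cases hv : v.1 ∈ B <;> simp [restr, hv, hy])
    · refine hM.supp y (fun b hb => ?_) hY
      by_cases hbB : b ∈ B
      · obtain ⟨v, rfl, hv⟩ := hx b hbB
        exact ⟨v, rfl, by rwa [hy v hbB]⟩
      · exact hrel b (Finset.mem_sdiff.2 ⟨hb, hbB⟩)
  exact ⟨r, hr, fun m => PieceT.ext (hr' _ (piece_val_mem_tl hBS hd m))⟩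

lemma On.piece_bg {X Y : Spc} (h : Proj Y X) (hM : M.On Y) :
    ∃ k, ∀ d, Bg (Y.B \ X.B) k d → (piece X.B (M.shift d)).On X := by
  obtain ⟨k, hk⟩ := exists_kill_piece hM X.B
  refine ⟨k, fun d hd => ⟨degIn_piece _ _, fun x hx hn => ?_⟩⟩
  by_cases hr : restr X.B x = x
  · exact hk d hd x hx fun y hy e => absurd (hr ▸ e ▸ h.map y hy) hn
  · rw [Sp.restr_eq_iff] at hr
    push Not at hr
    obtain ⟨v, hv, hv'⟩ := hr
    exact ⟨MvPolynomial.X v, by rwa [eval_X], (degIn_piece _ _).X_smul hv'⟩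

lemma Irr.piece_bg (X : Spc) {Y : Spc} (hM : M.On Y) (hi : M.Irr Y) :
    ∃ k, ∀ d, Bg (Y.B \ X.B) k d → (piece X.B (M.shift d)).Irr X := by
  obtain ⟨k, hk⟩ := exists_kill_piece hM X.B
  exact ⟨k, fun d hd x hx => hk d hd x (X.rel x hx) fun y hy _ => hi y hy⟩

end GM
end Crest.Agent.N265
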