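import Crest.Agent.N265.G.Dev
import Crest.Agent.N265.G.PushT

/-! # Push-forward, part K: isomorphisms of pieces, the Koszul relation (helper39) -/

set_option autoImplicit false
noncomputable section
open MvPolynomial

namespace Crest.Agent.N265
open GM PA
variable {X Y Z : Spc}

namespace GM
/-- isomorphic graded modules -/
def Iso (A B : GM) : Prop := ∃ f : A.M →ₗ[R] B.M, Deg0 f ∧ Function.Bijective f
lemma Iso.cl {A B : GM} (h : Iso A B) (X : Spc) : cl X A = cl X B :=
  let ⟨_, hf, hb⟩ := h; cl_bij hf hb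
lemma Iso.trans {A B C : GM} (h : Iso A B) (h' : Iso B C) : Iso A C :=
  let ⟨f, hf, hb⟩ := h; let ⟨g, hg, hb'⟩ := h'; ⟨g ∘ₗ f, hg.comp hf, hb'.comp hb⟩
lemma Iso.piece {A A' : GM} (h : Iso A A') (B : Finset ℕ) : Iso (piece B A) (piece B A') := by
  obtain ⟨f, hf, hi, hs⟩ := h
  refine ⟨pieceMap B f hf, deg0_pieceMap B f hf,
    fun a b h => PieceT.ext (hi (congrArg PieceT.val h)), fun c => ?_⟩
  obtain ⟨b, hb⟩ := hs (PieceT.val c)
  exact exists_pieceMap_eq B f hf c hb
lemma Iso.shift {A A' : GM} (h : Iso A A') (d : D) : Iso (A.shift d) (A'.shift d) :=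
  let ⟨f, hf, hb⟩ := h; ⟨f, hf.shift d, hb⟩
lemma iso_shift_shift (M : GM) (d e : D) : Iso ((M.shift d).shift e) (M.shift (e + d)) :=
  ⟨LinearMap.id, deg0_of_gr fun f m hm => by
    rw [shift_gr, shift_gr, add_assoc] at hm
    rw [shift_gr]; exact hm, Function.bijective_id⟩

lemma cp_map_of_gr {A A' : GM} (φ : A.M →+ A'.M) (c : D)
    (h : ∀ e m, m ∈ A.gr e → φ m ∈ A'.gr (e + c)) (d : D) (m : A.M) :
    A'.cp (d + c) (φ m) = φ (A.cp d m) := by
  obtain ⟨s, hs, hs'⟩ := A.exists_sum_cp m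
  conv_lhs => rw [← hs]
  rw [map_sum, map_sum, Finset.sum_eq_single d]
  · exact A'.cp_of_mem (h _ _ (A.cp_mem d m))
  · exact fun e _ he => A'.cp_of_mem_ne (h _ _ (A.cp_mem e m)) fun h' =>
      he (add_right_cancel h').symm
  · intro hd
    rw [hs' d hd, map_zero, map_zero]
lemma shift_cp (M : GM) (d e : D) (m : M.M) : (M.shift d).cp e m = M.cp (e + d) m :=
  (cp_map_of_gr (A := M.shift d) (A' := M) (AddMonoidHom.id _) d
    (fun _ _ hm => by rwa [shift_gr] at hm) e m).symm
lemma piece_cp_val (B : Finset ℕ) (M : GM) (d : D) (m : PieceT B M) :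
    PieceT.val ((piece B M).cp d m) = M.cp d m.val := by
  have := cp_map_of_gr (A := piece B M) (A' := M) (pieceSub B M).subtype 0
    (fun _ _ hm => by rw [add_zero]; exact piece_gr.1 hm) d m
  rw [add_zero] at this
  exact this.symm
lemma mem_pieceSub_shift {B : Finset ℕ} {M : GM} {d : D} {m : M.M} :
    (show (M.shift d).M from m) ∈ pieceSub B (M.shift d) ↔ ∀ e, e - d ∉ DS B → M.cp e m = 0 := by
  rw [mem_pieceSub]
  refine ⟨fun h e he => ?_, fun h e he => ?_⟩
  · have := h _ he
    rwa [shift_cp, sub_add_cancel] at this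
  · rw [shift_cp]
    exact h _ (by rwa [add_sub_cancel_right])

/-- two modules embedded compatibly in one group -/
lemma iso_of_emb {A A' : GM} {N : Type} [AddCommGroup N] (i : A.M →+ N) (i' : A'.M →+ N)
    (hi : Function.Injective i) (hi' : Function.Injective i') (h : ∀ a, ∃ a', i' a' = i a)
    (h' : ∀ a', ∃ a, i a = i' a')
    (hs : ∀ (r : R) a a', i' a' = i a → i' (r • a') = i (r • a))
    (hg : ∀ d a a', i' a' = i a → a ∈ A.gr d → a' ∈ A'.gr d) : Iso A A' := by
  choose f hf using h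
  refine ⟨{ toFun := f
            map_add' := fun a b => hi' (by rw [map_add, hf, hf, hf, map_add])
            map_smul' := fun r a => hi' (by rw [hf]; exact (hs r a _ (hf a)).symm) },
    deg0_of_gr fun d a ha => hg d a _ (hf a) ha,
    fun a b hab => hi (by rw [← hf, ← hf]; exact congrArg i' hab), fun a' => ?_⟩
  obtain ⟨a, ha⟩ := h' a'
  exact ⟨a, hi' ((hf a).trans ha)⟩
/-- the inclusion of a piece -/
def valH (B : Finset ℕ) (M : GM) : (piece B M).M →+ M.M := (pieceSub B M).subtype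
lemma valH_inj (B : Finset ℕ) (M : GM) : Function.Injective (valH B M) := Subtype.val_injective
lemma valH_mem {B : Finset ℕ} {M : GM} (m : (piece B M).M) : valH B M m ∈ pieceSub B M :=
  Subtype.property m
lemma exists_valH {B : Finset ℕ} {M : GM} {m : M.M} (h : m ∈ pieceSub B M) :
    ∃ a, valH B M a = m := ⟨(⟨m, h⟩ : pieceSub B M), rfl⟩
lemma valH_smul {B : Finset ℕ} {M : GM} (r : R) (m : (piece B M).M) :
    valH B M (r • m) = N265.kill B r • valH B M m := rfl
lemma valH_gr {B : Finset ℕ} {M : GM} {d : D} {m : (piece B M).M} :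
    m ∈ (piece B M).gr d ↔ valH B M m ∈ M.gr d := piece_gr
lemma valH_cp {B : Finset ℕ} {M : GM} (d : D) (m : (piece B M).M) :
    valH B M ((piece B M).cp d m) = M.cp d (valH B M m) := piece_cp_val B M d m

lemma iso_piece_shift (B : Finset ℕ) (M : GM) (e : D) {d : D} (hd : d ∈ DS B) :
    Iso ((piece B (M.shift e)).shift d) (piece B (M.shift (d + e))) := by
  have key : ∀ m : M.M, (show (M.shift e).M from m) ∈ pieceSub B (M.shift e) ↔
      (show (M.shift (d + e)).M from m) ∈ pieceSub B (M.shift (d + e)) := fun m => by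
    rw [mem_pieceSub_shift, mem_pieceSub_shift]
    refine forall_congr' fun f => imp_congr_left (not_congr ⟨fun h => ?_, fun h => ?_⟩)
    · simpa [sub_sub, add_comm e d] using sub_mem h hd
    · have := add_mem h hd
      rwa [show f - (d + e) + d = f - e by abel] at this
  refine iso_of_emb (N := M.M) (valH B (M.shift e)) (valH B (M.shift (d + e))) (valH_inj _ _)
    (valH_inj _ _) (fun a => exists_valH ((key _).1 (valH_mem a)))
    (fun a => exists_valH ((key _).2 (valH_mem a)))
    (fun r a a' h => congrArg (fun m : M.M => N265.kill B r • m) h) fun f a a' h ha => ?_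
  rw [shift_gr] at ha
  have h1 := valH_gr.1 ha
  rw [shift_gr, add_assoc] at h1
  refine valH_gr.2 ?_
  rw [shift_gr]
  exact h ▸ h1
lemma iso_piece_self {B : Finset ℕ} {N : GM} (h : N.DegIn B) : Iso (piece B N) N :=
  iso_of_emb (valH B N) (AddMonoidHom.id _) (valH_inj _ _) Function.injective_id
    (fun _ => ⟨_, rfl⟩)
    (fun m => exists_valH (mem_pieceSub.2 fun d hd => by
      have := N.cp_mem d m
      rwa [h d hd, Submodule.mem_bot] at this))
    (fun r a a' e => by rw [valH_smul, h.kill_smul, ← e]; rfl)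
    fun d a a' e ha => by
      have := valH_gr.1 ha
      rwa [← e] at this
lemma iso_piece_piece {B B' : Finset ℕ} (h : B ⊆ B') (N : GM) :
    Iso (piece B (piece B' N)) (piece B N) := by
  refine iso_of_emb ((valH B' N).comp (valH B (piece B' N))) (valH B N)
    ((valH_inj _ _).comp (valH_inj _ _)) (valH_inj _ _)
    (fun a => exists_valH (mem_pieceSub.2 fun d hd => ?_)) (fun c => ?_) (fun r a a' e => ?_)
    fun d a a' e ha => ?_
  · rw [AddMonoidHom.comp_apply, ← valH_cp, mem_pieceSub.1 (valH_mem a) d hd, map_zero]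
  · have hc := mem_pieceSub.1 (valH_mem c)
    obtain ⟨c', e⟩ := exists_valH (B := B') (mem_pieceSub.2 fun d hd =>
      hc d fun h' => hd (DS_mono h h'))
    obtain ⟨c'', e'⟩ := exists_valH (B := B) (m := c') (mem_pieceSub.2 fun d hd =>
      valH_inj _ _ (by rw [valH_cp, e, hc d hd, map_zero]))
    exact ⟨c'', by rw [AddMonoidHom.comp_apply, e', e]⟩
  · rw [AddMonoidHom.comp_apply, valH_smul, valH_smul, valH_smul, e, Sp.kill_kill,
      Finset.inter_eq_right.2 h, AddMonoidHom.comp_apply]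
  · rw [valH_gr, e]
    exact valH_gr.1 (valH_gr.1 ha)
end GM

open Classical in
/-- the retraction of the degrees onto those living in `B` -/
def piB (B : Finset ℕ) : D →+ D := Finsupp.filterAddHom fun i => ∀ b, i = some b → b ∈ B
lemma piB_none (B : Finset ℕ) (d : D) : piB B d none = d none :=
  Finsupp.filter_apply_pos _ _ (by simp)
lemma piB_pos {B : Finset ℕ} (d : D) {b : ℕ} (h : b ∈ B) : piB B d (some b) = d (some b) :=
  Finsupp.filter_apply_pos _ _ (by simpa)
lemma piB_mem (B : Finset ℕ) (d : D) : piB B d ∈ DS B := fun b hb =>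
  Finsupp.filter_apply_neg _ _ (by simpa)
lemma piB_of_mem {B : Finset ℕ} {d : D} (h : d ∈ DS B) : piB B d = d := by
  ext i
  cases i with
  | none => exact piB_none B d
  | some b =>
    by_cases hb : b ∈ B
    · exact piB_pos d hb
    · rw [piB_mem B d b hb, h b hb]

/-- the action of the group ring of degrees on `G X` -/
def rhoG (X : Spc) : Lm →ₐ[ℤ] Module.End ℤ (G X) :=
  rho (fun d => sh X (piB X.B d)) (fun a => by rw [map_zero, sh_zero])
    fun d e a => by rw [map_add, sh_add (piB_mem _ _) (piB_mem _ _)]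
lemma rhoG_xd {d : D} (hd : d ∈ DS X.B) (a : G X) : rhoG X (xd d) a = sh X d a := by
  rw [rhoG, rho_xd, piB_of_mem hd]

lemma rhoG_kos_cl (V : Finset Var) (hV : ∀ v ∈ V, v.1 ∈ X.B) {M : GM} (hM : M.On X)
    (hk : ∀ x ∈ X.pts, (∀ v ∈ V, x v = 0) → M.Kill x) : rhoG X (kos V) (cl X M) = 0 := by
  classical
  induction V using Finset.induction_on generalizing M with
  | empty => rw [cl_irr fun x hx => hk x hx (by simp), map_zero]
  | insert v V hv ih =>
    have hd : vdeg v ∈ DS X.B := vdeg_mem (hV v (by simp))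
    have hV' : ∀ w ∈ V, w.1 ∈ X.B := fun w hw => hV w (by simp [hw])
    let f : M.M →ₗ[R] (M.shift (vdeg v)).M := LinearMap.lsmul R M.M (MvPolynomial.X v)
    have hf : Deg0 f := deg0_of_gr fun e m hm => by
      rw [shift_gr, add_comm]; exact M.smul_mem_gr (Hmg.X v) hm
    have hs := hM.shift hd
    have h1 := cl_ses (ses_ker_range hf) hM
    have h2 := cl_ses (ses_sub_quot hf.stab_range) hs
    have h3 := ih hV' (hM.sub hf.stab_ker) fun x hx h0 => by
      by_cases hxv : x v = 0
      · obtain ⟨r, hr, h⟩ := hk x hx (by simpa [hxv] using h0)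
        exact ⟨r, hr, fun m => Subtype.ext (h m.1)⟩
      · exact ⟨MvPolynomial.X v, by rwa [eval_X], fun m => Subtype.ext m.2⟩
    have h4 := ih hV' (hs.quot hf.stab_range) fun x hx h0 => by
      by_cases hxv : x v = 0
      · obtain ⟨r, hr, h⟩ := hk x hx (by simpa [hxv] using h0)
        refine ⟨r, hr, fun m => ?_⟩
        obtain ⟨m, rfl⟩ := Submodule.Quotient.mk_surjective _ m
        exact (Submodule.Quotient.mk_eq_zero _).2 ⟨0, (map_zero f).trans (h m).symm⟩
      · refine ⟨MvPolynomial.X v, by rwa [eval_X], fun m => ?_⟩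
        obtain ⟨m, rfl⟩ := Submodule.Quotient.mk_surjective _ m
        exact (Submodule.Quotient.mk_eq_zero _).2 ⟨m, rfl⟩
    rw [kos, Finset.prod_insert hv, ← kos, mul_comm, map_mul, Module.End.mul_apply, map_sub,
      map_one, LinearMap.sub_apply, Module.End.one_apply, rhoG_xd hd, sh_cl hd hM, h1, h2,
      map_sub, map_add, map_add, h3, h4]
    abel
lemma rhoG_kos {b : ℕ} (hb : b ∈ X.B) (V : Finset Var) (hV : ∀ v ∈ V, v.1 ∈ X.B)
    (h : ∀ x ∈ X.pts, ∀ v : Var, v.1 = b → x v ≠ 0 → v ∈ V) (a : G X) :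
    rhoG X (kos V) a = 0 := by
  induction a using G.ind with
  | h0 => exact map_zero _
  | hcl M hM =>
    refine rhoG_kos_cl V hV hM fun x hx h0 => ?_
    obtain ⟨v, hv, hv'⟩ := X.rel x hx b hb
    exact absurd (h0 v (h x hx v hv hv')) hv'
  | hneg a ha => rw [map_neg, ha, neg_zero]
  | hadd a b ha hb => rw [map_add, ha, hb, add_zero]
lemma exists_kos (X : Spc) : ∃ V : Finset Var, ∀ b ∈ X.B, ∀ a : G X,
    rhoG X (kos (V.filter fun v => v.1 = b)) a = 0 := by
  obtain ⟨V, hV, h⟩ := X.fin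
  refine ⟨V, fun b hb => rhoG_kos hb _ (fun v hv => hV v (Finset.mem_filter.1 hv).1)
    fun x hx v hv h0 => Finset.mem_filter.2 ⟨?_, hv⟩⟩
  by_contra hc
  exact h0 (h x hx v hc)

/-- a class is a combination of high twists in any set of blocks -/
theorem cl_mem_of_big {S : Finset ℕ} (hS : S ⊆ Y.B) (P : AddSubgroup (G Y))
    (hT : ∀ k : ℤ, ∀ a ∈ P, sh Y (k • eT) a ∈ P) (a : G Y) (k : ℤ)
    (hb : ∀ d ∈ DS S, d none = 0 → Bg S k d → sh Y d a ∈ P) : a ∈ P := by
  obtain ⟨V, hV⟩ := exists_kos Y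
  have h1 : ∀ a, rhoG Y (U S V) a = a := fun a => by
    have := one_sub_U (S := S) (rhoG Y) ⊥ (fun c _ n hn => by simp_all) V (n := a)
      fun b hb => hV b (hS hb) a
    rw [AddSubgroup.mem_bot, map_sub, map_one, LinearMap.sub_apply, sub_eq_zero] at this
    exact this.symm
  have h2 : ∀ n : ℕ, rhoG Y (U S V ^ n) a = a := fun n => by
    induction n with
    | zero => simp
    | succ n ih => rw [pow_succ', map_mul, Module.End.mul_apply, ih, h1]
  rw [← h2 k.toNat]
  refine W_ind (P := fun c => rhoG Y c a ∈ P) (fun d hd hk => ?_) (by simp)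
    (fun _ _ h h' => by simpa using add_mem h h') (fun _ h => by simpa using h)
    (U_pow_mem V k.toNat)
  have h3 : d none • eT ∈ DS S := zsmul_mem (eT_mem S) _
  have h4 := sub_mem hd h3
  rw [rhoG_xd (DS_mono hS hd), ← add_sub_cancel (d none • eT) d,
    sh_add (DS_mono hS h3) (DS_mono hS h4)]
  refine hT _ _ (hb _ h4 (by simp [eT]) fun b hb => ?_)
  have := hk b hb
  simp only [eT, Finsupp.coe_sub, Finsupp.coe_smul, Pi.sub_apply, Pi.smul_apply, smul_eq_mul]
  rw [Finsupp.single_eq_of_ne (by simp)]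
  omega

lemma exists_eval_bsc₂ {c : ℕ → ℂ} (hc : ∀ b, c b ≠ 0) {d d' : D}
    (h : ∀ b, d (some b) = d' (some b)) : ∃ a : ℂ, ∀ x r r', Hmg d r → Hmg d' r' →
      eval (Sp.bsc c x) r = a * eval x r ∧ eval (Sp.bsc c x) r' = a * eval x r' := by
  obtain ⟨t, ht, -, hT⟩ := Sp.exists_tor_eq c hc 1 one_ne_zero
  have h1 : ∀ x, Sp.bsc c x = tpt t x := fun x => funext fun v => by simp [ht, Sp.bsc]
  have h2 : d' = d + (d' none - d none) • eT := by
    ext i; cases i <;> simp [eT, h]
  refine ⟨t (Multiplicative.ofAdd d), fun x r r' hr hr' => ⟨by rw [h1, hr.eval_tpt], ?_⟩⟩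
  rw [h1, hr'.eval_tpt, h2, ofAdd_add, map_mul, ofAdd_zsmul, map_zpow, Units.val_mul,
    Units.val_zpow_eq_zpow_val, hT, one_zpow, mul_one]

end Crest.Agent.N265
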