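import Crest.Agent.N265.G.Dev
import Crest.Agent.N265.G.Ext
import Crest.Agent.N265.G.PushK
import Crest.Agent.N265.Sp.Elim

/-! # Task G5: push-forward along projections, elimination -/

set_option autoImplicit false
noncomputable section
open MvPolynomial

namespace Crest.Agent.N265
open GM
variable {X Y Z : Spc}

/-- `d` lives in the blocks of `Y` outside `X` and is at least `k` there -/
def Big (Y X : Spc) (k : ℤ) (d : D) : Prop :=
  d none = 0 ∧ (∀ b, b ∈ X.B ∨ b ∉ Y.B → d (some b) = 0) ∧ ∀ b ∈ Y.B, b ∉ X.B → k ≤ d (some b)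

lemma big_iff {k : ℤ} {d : D} :
    Big Y X k d ↔ d ∈ DS (Y.B \ X.B) ∧ d none = 0 ∧ PA.Bg (Y.B \ X.B) k d :=
  ⟨fun h => ⟨fun b hb => h.2.1 b (by simp only [Finset.mem_sdiff] at hb; tauto), h.1,
    fun b hb => h.2.2 b (Finset.mem_sdiff.1 hb).1 (Finset.mem_sdiff.1 hb).2⟩,
   fun h => ⟨h.2.1, fun b hb => h.1 b (by simp only [Finset.mem_sdiff]; tauto),
    fun b hb hb' => h.2.2 b (Finset.mem_sdiff.2 ⟨hb, hb'⟩)⟩⟩
lemma Big.mono {k k' : ℤ} {d : D} (h : Big Y X k d) (hk : k' ≤ k) : Big Y X k' d :=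
  ⟨h.1, h.2.1, fun b hb hb' => hk.trans (h.2.2 b hb hb')⟩
lemma Big.mem_DS {k : ℤ} {d : D} (h : Big Y X k d) : d ∈ DS Y.B :=
  fun b hb => h.2.1 b (Or.inr hb)
lemma Big.add {k : ℤ} {d e : D} (h : Proj Z Y) (h' : Proj Y X) (hd : Big Z Y k d)
    (he : Big Y X k e) : Big Z X k (e + d) := by
  refine ⟨by rw [Finsupp.add_apply, hd.1, he.1, add_zero], fun b hb => ?_, fun b hb hb' => ?_⟩
  · rw [Finsupp.add_apply, hd.2.1 b (hb.imp (fun h1 => h'.sub h1) id),
      he.2.1 b (hb.imp id fun h1 h2 => h1 (h.sub h2)), add_zero]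
  · rw [Finsupp.add_apply]
    by_cases hY : b ∈ Y.B
    · rw [hd.2.1 b (Or.inl hY), add_zero]; exact he.2.2 b hY hb'
    · rw [he.2.1 b (Or.inr hY), zero_add]; exact hd.2.2 b hb hY
lemma Big.exists (Y X : Spc) (k : ℤ) : ∃ d, Big Y X k d := by
  refine ⟨∑ b ∈ Y.B \ X.B, k • eB b, big_iff.2
    ⟨sum_mem fun b hb => zsmul_mem (eB_mem hb) k, by simp [eB, Finsupp.finsetSum_apply],
      fun b hb => le_of_eq ?_⟩⟩
  simp [eB, Finsupp.finsetSum_apply, Finsupp.single_apply, hb, -Finset.mem_sdiff]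

lemma GM.On.piece (h : Proj Y X) {M : GM} (hM : M.On Y) :
    ∃ k, ∀ d, Big Y X k d → (piece X.B (M.shift d)).On X :=
  (hM.piece_bg h).imp fun _ hk d hd => hk d (big_iff.1 hd).2.2
/-- properness -/
lemma GM.Irr.piece (h : Proj Y X) {M : GM} (hM : M.On Y) (hi : M.Irr Y) :
    ∃ k, ∀ d, Big Y X k d → (piece X.B (M.shift d)).Irr X :=
  have _ := h
  (Irr.piece_bg X hM hi).imp fun _ hk d hd => hk d (big_iff.1 hd).2.2
/-- the Koszul relation of a block: if the variables of block `b` outside `V` vanish on `X` -/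
theorem koszul_block {b : ℕ} (hb : b ∈ X.B) (V : Finset Var) (hV : ∀ v ∈ V, v.1 = b)
    (h : ∀ x ∈ X.pts, ∀ v : Var, v.1 = b → x v ≠ 0 → v ∈ V) (a : G X) :
    ∑ S ∈ V.powerset, (-1 : ℤ) ^ S.card • sh X (-∑ v ∈ S, vdeg v) a = 0 := by
  have hV' : ∀ v ∈ V, v.1 ∈ X.B := fun v hv => hV v hv ▸ hb
  have h1 : ∏ v ∈ V, (1 + -PA.xd (-vdeg v)) = (∏ v ∈ V, -PA.xd (-vdeg v)) * PA.kos V := by
    rw [PA.kos, ← Finset.prod_mul_distrib]
    refine Finset.prod_congr rfl fun v _ => ?_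
    rw [mul_sub, neg_mul _ (PA.xd _), ← PA.xd_add, neg_add_cancel, PA.xd_zero]; ring
  have h2 := congrArg (fun c => rhoG X c a) h1
  simp only [map_mul, Module.End.mul_apply, rhoG_kos hb V hV' h a, map_zero] at h2
  rw [Finset.prod_one_add, map_sum, LinearMap.sum_apply] at h2
  rw [← h2]
  refine Finset.sum_congr rfl fun S hS => ?_
  rw [Finset.prod_neg, ← PA.xd_sum, Finset.sum_neg_distrib, map_mul, Module.End.mul_apply,
    rhoG_xd (neg_mem (sum_mem fun v hv => vdeg_mem (hV' v (Finset.mem_powerset.1 hS hv))))]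
  rcases neg_one_pow_eq_or ℤ S.card with e | e
  · rw [e, one_smul, show (-1 : PA.Lm) ^ S.card = ((-1 : ℤ) ^ S.card : ℤ) by simp, e]; simp
  · rw [e, neg_one_smul, show (-1 : PA.Lm) ^ S.card = ((-1 : ℤ) ^ S.card : ℤ) by simp, e]; simp

/-- characterisation of the push-forward -/
structure IsPush (Y X : Spc) (Φ : G Y →+ G X) : Prop where
  sh : ∀ d ∈ DS X.B, ∀ a, Φ (sh Y d a) = sh X d (Φ a)
  big : ∀ M : GM, M.On Y → ∃ k, ∀ d, Big Y X k d →
    Φ (cl Y (M.shift d)) = cl X (piece X.B (M.shift d))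
/-- two homomorphisms out of `G Y` commuting with `t` that agree on high twists agree -/
theorem G.ext_big (h : Proj Y X) (P : AddSubgroup (G Y))
    (hT : ∀ k : ℤ, ∀ a ∈ P, sh Y (k • eT) a ∈ P)
    (hb : ∀ M : GM, M.Red Y → ∃ k, ∀ d, Big Y X k d → cl Y (M.shift d) ∈ P) : P = ⊤ := by
  have _ := h
  refine eq_top_iff.2 fun a _ => G.ind_red (P := fun a => a ∈ P) P.zero_mem (fun M hM => ?_)
    (fun _ => P.neg_mem) (fun _ _ => P.add_mem) a
  obtain ⟨k, hk⟩ := hb M hM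
  refine cl_mem_of_big (S := Y.B \ X.B) Finset.sdiff_subset P hT _ k fun d h1 h2 h3 => ?_
  rw [sh_cl (DS_mono Finset.sdiff_subset h1) hM.on]
  exact hk d (big_iff.2 ⟨h1, h2, h3⟩)

theorem IsPush.uniq (h : Proj Y X) {Φ Ψ : G Y →+ G X} (hΦ : IsPush Y X Φ) (hΨ : IsPush Y X Ψ) :
    Φ = Ψ := by
  have := G.ext_big h (Φ.eqLocus Ψ) (fun k a (ha : Φ a = Ψ a) => show Φ _ = Ψ _ by
    rw [hΦ.sh _ (zsmul_mem (eT_mem _) k), hΨ.sh _ (zsmul_mem (eT_mem _) k), ha]) fun M hM => by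
      obtain ⟨k, hk⟩ := hΦ.big M hM.on
      obtain ⟨j, hj⟩ := hΨ.big M hM.on
      exact ⟨max k j, fun d hd => (hk d (hd.mono (le_max_left _ _))).trans
        (hj d (hd.mono (le_max_right _ _))).symm⟩
  exact AddMonoidHom.ext fun a => this.ge (AddSubgroup.mem_top a)
theorem exists_push (Y X : Spc) : ∃ Φ : G Y →+ G X, Proj Y X → IsPush Y X Φ := by
  by_cases h : Proj Y X
  swap
  · exact ⟨0, fun h' => absurd h' h⟩
  obtain ⟨V, hV⟩ := exists_kos Y
  obtain ⟨L, L1, L2, L3, L4⟩ := PA.exists_lim (Y.B \ X.B) V (G X)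
  obtain ⟨a, ha⟩ : ∃ a : GM → D → G X, ∀ M d, a M d = cl X (piece X.B (M.shift d)) :=
    ⟨_, fun _ _ => rfl⟩
  have hses : ∀ A B C : GM, SES A B C → B.On Y → a B - (a A + a C) ∈ PA.Ev0 (Y.B \ X.B) (G X) := by
    intro A B C hs hB
    obtain ⟨k, hk⟩ := hB.piece_bg h
    exact ⟨k, fun d hd => by
      rw [Pi.sub_apply, Pi.add_apply, ha, ha, ha, cl_ses ((hs.shift d).piece X.B) (hk d hd),
        sub_self]⟩
  have hirr : ∀ A : GM, A.On Y → A.Irr Y → a A ∈ PA.Ev0 (Y.B \ X.B) (G X) := by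
    intro A hA hi
    obtain ⟨k, hk⟩ := Irr.piece_bg X hA hi
    exact ⟨k, fun d hd => by rw [ha, cl_irr (hk d hd)]⟩
  have hsh : ∀ (M : GM) (d : D), a (M.shift d) = fun e => a M (e + d) := fun M d =>
    funext fun e => by rw [ha, ha, ((iso_shift_shift M d e).piece X.B).cl]
  obtain ⟨Φ₀, hΦ₀⟩ := G.exists_lift (X := Y)
    (fun M => (QuotientAddGroup.mk (a M) : (D → G X) ⧸ PA.Ev0 (Y.B \ X.B) (G X)))
    (fun A B C hs hB => by
      rw [← QuotientAddGroup.mk_add, QuotientAddGroup.eq_iff_sub_mem]; exact hses A B C hs hB)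
    fun A hA hi => (QuotientAddGroup.eq_zero_iff _).2 (hirr A hA hi)
  have hst : ∀ M : GM, M.On Y →
      PA.rhoF (G X) (1 - PA.U (Y.B \ X.B) V) (a M) ∈ PA.Ev0 (Y.B \ X.B) (G X) := by
    intro M hM
    refine PA.one_sub_U _ _ (fun c hc f hf => PA.rhoF_ev0 hc hf) V fun b hb => ?_
    have key : ∀ c ∈ PA.W (Y.B \ X.B) 0, Φ₀ (rhoG Y c (cl Y M)) =
        QuotientAddGroup.mk (PA.rhoF (G X) c (a M)) := fun c hc =>
      PA.W_ind (P := fun c => Φ₀ (rhoG Y c (cl Y M)) =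
          QuotientAddGroup.mk (PA.rhoF (G X) c (a M)))
        (fun d hd _ => by
          have hd' := DS_mono Finset.sdiff_subset hd
          rw [rhoG_xd hd', sh_cl hd' hM, hΦ₀ _ (hM.shift hd'), hsh, PA.rhoF_xd])
        (by simp) (fun _ _ h1 h2 => by simp [h1, h2]) (fun _ h1 => by simp [h1]) hc
    rw [← QuotientAddGroup.eq_zero_iff, ← key _ (PA.kos_mem_zero hb V),
      hV b (Finset.mem_sdiff.1 hb).1, map_zero]
  obtain ⟨Φ, hΦ⟩ := G.exists_lift (X := Y) (fun M => L (a M))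
    (fun A B C hs hB => L1 _ _ _ (hst A (hs.on_left hB)) (hst C (hs.on_right hB))
      (hses A B C hs hB)) fun A hA hi => L2 _ (hirr A hA hi)
  refine ⟨Φ, fun _ => ⟨fun d hd => DFunLike.congr_fun (G.hom_ext (φ := Φ.comp (sh Y d))
    (ψ := (sh X d).comp Φ) fun M hM => ?_), fun M hM => ?_⟩⟩
  · have hd' := DS_mono h.sub hd
    rw [AddMonoidHom.comp_apply, AddMonoidHom.comp_apply, sh_cl hd' hM, hΦ _ (hM.shift hd'),
      hΦ _ hM]
    refine L4 (sh X d) _ _ (hst M hM) ?_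
    obtain ⟨k, hk⟩ := hM.piece_bg h
    refine ⟨k, fun e he => ?_⟩
    rw [Pi.sub_apply, hsh]
    simp only [ha]
    rw [sh_cl hd (hk e he), (iso_piece_shift X.B M e hd).cl, add_comm, sub_self]
  · obtain ⟨k, hk⟩ := L3 _ (hst M hM)
    exact ⟨k, fun d hd => by
      rw [hΦ _ (hM.shift hd.mem_DS), hsh, hk d (big_iff.1 hd).2.2, ha]⟩
/-- push-forward -/
def push (Y X : Spc) : G Y →+ G X := (exists_push Y X).choose
lemma isPush (h : Proj Y X) : IsPush Y X (push Y X) := (exists_push Y X).choose_spec h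
lemma push_sh (h : Proj Y X) {d : D} (hd : d ∈ DS X.B) (a : G Y) :
    push Y X (sh Y d a) = sh X d (push Y X a) := (isPush h).sh d hd a
theorem push_eq_incl (h : Y.Sub X) : push Y X = incl Y X :=
  (isPush h.proj).uniq h.proj ⟨fun _ hd => incl_sh h hd, fun M hM => ⟨0, fun d hd => by
    have := hM.shift hd.mem_DS
    rw [incl_cl h this, (iso_piece_self (this.mono h).deg).cl]⟩⟩
theorem push_self (a : G X) : push X X a = a := by
  rw [push_eq_incl (Spc.Sub.refl X), dv_incl_self]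
theorem push_push (h : Proj Z Y) (h' : Proj Y X) (a : G Z) :
    push Y X (push Z Y a) = push Z X a := by
  have h'' := h.trans h'
  have hT : ∀ k : ℤ, ∀ a ∈ ((push Y X).comp (push Z Y)).eqLocus (push Z X),
      sh Z (k • eT) a ∈ ((push Y X).comp (push Z Y)).eqLocus (push Z X) :=
    fun k a (ha : push Y X (push Z Y a) = push Z X a) =>
      show push Y X (push Z Y _) = push Z X _ by
        rw [push_sh h (zsmul_mem (eT_mem _) k), push_sh h' (zsmul_mem (eT_mem _) k),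
          push_sh h'' (zsmul_mem (eT_mem _) k), ha]
  refine (G.ext_big h _ hT fun M hM => ?_).ge (AddSubgroup.mem_top a)
  obtain ⟨k₁, h₁⟩ := (isPush h).big M hM.on
  obtain ⟨k₂, h₂⟩ := hM.on.piece h
  obtain ⟨k₃, h₃⟩ := (isPush h'').big M hM.on
  refine ⟨max (max k₁ k₂) k₃, fun d hd => ?_⟩
  have hN := h₂ d (hd.mono (le_max_of_le_left (le_max_right _ _)))
  obtain ⟨k₄, h₄⟩ := (isPush h').big _ hN
  refine cl_mem_of_big (S := Y.B \ X.B) (Finset.sdiff_subset.trans h.sub) _ hT _ (max k₄ k₃)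
    fun e e1 e2 e3 => ?_
  have he : Big Y X (max k₄ k₃) e := big_iff.2 ⟨e1, e2, e3⟩
  change push Y X (push Z Y _) = push Z X _
  rw [push_sh h he.mem_DS, h₁ d (hd.mono (le_max_of_le_left (le_max_left _ _))),
    sh_cl he.mem_DS hN, h₄ e (he.mono (le_max_left _ _)),
    sh_cl (DS_mono h.sub he.mem_DS) (hM.on.shift hd.mem_DS), ← cl_shift_add,
    h₃ _ ((hd.mono (le_max_right _ _)).add h h' (he.mono (le_max_right _ _))),
    (((iso_piece_shift Y.B M d he.mem_DS).piece X.B).trans (iso_piece_piece h'.sub _)).cl]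
/-- a point pushes to a point -/
theorem push_one_pt {P Q : Spc} {w : ℕ → ℤ} (hP : P.IsPt w) (hQ : Q.IsPt w) (h : Proj P Q) :
    push P Q (one P) = one Q := by
  obtain ⟨x, hx, -⟩ := hP.2
  choose! v hv hv' using P.rel x hx
  obtain ⟨k₁, h₁⟩ := (isPush h).big _ (red_O P).on
  obtain ⟨k₂, h₂⟩ := (red_O P).on.piece h
  obtain ⟨n, hn⟩ : ∃ n : ℕ, max k₁ k₂ ≤ n := ⟨_, Int.self_le_toNat _⟩
  have hSP : ∀ b ∈ P.B \ Q.B, b ∈ P.B := fun b hb => (Finset.mem_sdiff.1 hb).1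
  have hdeg : ∀ b ∈ P.B, vdeg (v b) = eB b + w b • eT := fun b hb => by
    rw [vdeg, hP.1 x hx _ (hv' b hb), hv b hb]
  obtain ⟨d, hd⟩ : ∃ d : D, d = ∑ b ∈ P.B \ Q.B, (n : ℤ) • eB b := ⟨_, rfl⟩
  obtain ⟨j, hj⟩ : ∃ j : ℤ, j = ∑ b ∈ P.B \ Q.B, n * w b := ⟨_, rfl⟩
  have hbig : Big P Q n d := hd ▸ big_iff.2
    ⟨sum_mem fun b hb => zsmul_mem (eB_mem hb) _, by simp [eB, Finsupp.finsetSum_apply],
      fun b hb => le_of_eq (by
        simp [eB, Finsupp.finsetSum_apply, Finsupp.single_apply, hb, -Finset.mem_sdiff])⟩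
  have hδ : j • eT + d = ∑ b ∈ P.B \ Q.B, n • vdeg (v b) := by
    rw [hd, hj, Finset.sum_smul, ← Finset.sum_add_distrib]
    refine Finset.sum_congr rfl fun b hb => ?_
    rw [hdeg b (hSP b hb), ← natCast_zsmul, smul_add, mul_smul, add_comm]
  have hfix : ∀ T ⊆ P.B, ∀ a, sh P (∑ b ∈ T, n • vdeg (v b)) a = a := by
    intro T hT
    induction T using Finset.induction_on with
    | empty => simpa using sh_zero
    | insert b T hb ih =>
      have hbP : b ∈ P.B := hT (by simp)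
      have hT' : T ⊆ P.B := fun c hc => hT (by simp [hc])
      have h1 : vdeg (v b) ∈ DS P.B := vdeg_mem (by rwa [hv b hbP])
      intro a
      rw [Finset.sum_insert hb, sh_add (nsmul_mem h1 n) (sum_mem fun c hc =>
        nsmul_mem (vdeg_mem (by rw [hv c (hT' hc)]; exact hT' hc)) n), ih hT', ← natCast_zsmul]
      exact dv_sh_zsmul h1 (fun a => by rw [hdeg b hbP]; exact hP.sh_block hbP a) _ a
  have hjT : ∀ B, j • eT ∈ DS B := fun B => zsmul_mem (eT_mem B) j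
  rw [← hfix _ Finset.sdiff_subset (one P), ← hδ, sh_add (hjT _) hbig.mem_DS, push_sh h (hjT _),
    one, sh_cl hbig.mem_DS (red_O P).on, h₁ d (hbig.mono (le_of_max_le_left hn)),
    sh_cl (hjT _) (h₂ d (hbig.mono (le_of_max_le_right hn))),
    (iso_piece_shift Q.B _ d (hjT _)).cl]
  -- the multiplication by the monomial `μ`
  obtain ⟨μ, hμ⟩ : ∃ μ : R, μ = ∏ b ∈ P.B \ Q.B, MvPolynomial.X (v b) ^ n := ⟨_, rfl⟩
  have hμh : Hmg (j • eT + d) μ := by
    rw [hδ, hμ]; exact Hmg.prod _ fun b _ => (Hmg.X _).pow n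
  have hμx : ∀ c : ℕ → ℂ, (∀ b, c b ≠ 0) → eval (Sp.bsc c x) μ ≠ 0 := fun c hc => by
    rw [hμ, map_prod]
    exact Finset.prod_ne_zero_iff.2 fun b hb => by
      rw [map_pow, eval_X]; exact pow_ne_zero _ (mul_ne_zero (hc _) (hv' b (hSP b hb)))
  generalize hδ' : j • eT + d = δ at hμh
  have hδ0 : ∀ b ∈ Q.B, δ (some b) = 0 := fun b hb => by
    rw [← hδ', Finsupp.add_apply, hbig.2.1 b (Or.inl hb)]; simp [eT]
  have hred : (piece Q.B ((O P).shift δ)).Red Q := Red.piece h (red_O P).ann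
  have hm0 : (Ideal.Quotient.mk P.I μ : ((O P).shift δ).M) ∈ ((O P).shift δ).gr 0 := by
    rw [shift_gr, zero_add]; exact (Oid_gr _ _).2 ⟨μ, hμh, rfl⟩
  obtain ⟨m₀, hm₀⟩ := exists_valH (B := Q.B) (M := (O P).shift δ)
    (AddSubgroup.subset_closure ⟨0, zero_mem _, hm0⟩)
  have hval : ∀ r : R, valH _ _ (dvSpan hred m₀ (Ideal.Quotient.mk Q.I r)) =
      Ideal.Quotient.mk P.I (kill Q.B r * μ) := fun r => by
    rw [dvSpan_mk, valH_smul, hm₀]; rfl
  refine (cl_bij (f := dvSpan hred m₀) (deg0_of_gr fun e q hq => ?_)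
    ⟨(injective_iff_map_eq_zero _).2 fun q hq => ?_, fun m => ?_⟩).symm
  · obtain ⟨r, hr, rfl⟩ := (Oid_gr _ _).1 hq
    have := (piece Q.B ((O P).shift δ)).smul_mem_gr hr (valH_gr.2 (hm₀ ▸ hm0))
    rwa [add_zero] at this
  · obtain ⟨r, rfl⟩ := Ideal.Quotient.mk_surjective (I := Q.I) q
    have h1 := hval r
    rw [hq, map_zero] at h1
    have h2 := Ideal.Quotient.eq_zero_iff_mem.1 h1.symm
    refine Ideal.Quotient.eq_zero_iff_mem.2 fun y hy => ?_
    obtain ⟨c, hc, e⟩ := hQ.exists_scal (h.map x hx) hy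
    have h3 := h2 _ (Sp.bsc_mem hx fun b _ => hc b)
    rw [map_mul, eval_kill, Sp.restr_bsc] at h3
    rw [show y = Sp.bsc c (restr Q.B x) from funext e]
    exact (mul_eq_zero.1 h3).resolve_right (hμx c hc)
  · have key : ∀ q ∈ pieceSub Q.B ((O P).shift δ), ∃ r : R,
        Ideal.Quotient.mk P.I (kill Q.B r * μ) = q := by
      intro q hq
      induction hq using AddSubgroup.closure_induction with
      | mem q hq =>
        obtain ⟨e, he, hq⟩ := hq
        rw [shift_gr] at hq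
        obtain ⟨s, hs, rfl⟩ := (Oid_gr _ _).1 hq
        by_cases hneg : ∃ b ∈ Q.B, e (some b) < 0
        · obtain ⟨b, hb, hb'⟩ := hneg
          refine ⟨0, ?_⟩
          rw [hs.eq_zero_of_neg (b := b) (by rwa [Finsupp.add_apply, hδ0 b hb, add_zero])]
          simp
        push Not at hneg
        obtain ⟨ν, hν⟩ : ∃ ν : R, ν = ∏ b ∈ Q.B, MvPolynomial.X (v b) ^ (e (some b)).toNat :=
          ⟨_, rfl⟩
        have hνh : Hmg (∑ b ∈ Q.B, (e (some b)).toNat • vdeg (v b)) ν := by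
          rw [hν]; exact Hmg.prod _ fun b _ => (Hmg.X _).pow _
        have hνk : kill Q.B ν = ν := hνh.kill_eq_self (sum_mem fun b hb =>
          nsmul_mem (vdeg_mem (by rwa [hv b (h.sub hb)])) _)
        have hνx : eval x (ν * μ) ≠ 0 := by
          have h1 := hμx (fun _ => 1) fun _ => one_ne_zero
          rw [show Sp.bsc (fun _ => 1) x = x from funext fun _ => one_mul _] at h1
          rw [map_mul, hν, map_prod]
          exact mul_ne_zero (Finset.prod_ne_zero_iff.2 fun b hb => by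
            rw [map_pow, eval_X]; exact pow_ne_zero _ (hv' b (h.sub hb))) h1
        refine ⟨C (eval x s / eval x (ν * μ)) * ν, Ideal.Quotient.eq.2 fun y hy => ?_⟩
        obtain ⟨c, hc, e'⟩ := hP.exists_scal hx hy
        obtain ⟨a, ha⟩ := exists_eval_bsc₂ hc (d := e + δ)
          (d' := ∑ b ∈ Q.B, (e (some b)).toNat • vdeg (v b) + δ) fun b => by
            rw [Finsupp.add_apply, Finsupp.add_apply, Finsupp.finsetSum_apply,
              Finset.sum_congr rfl fun c hc => by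
                rw [Finsupp.smul_apply, PA.vdeg_apply, hv c (h.sub hc)]]
            by_cases hb : b ∈ Q.B
            · simp [hb, hneg b hb]
            · simp [hb, he b hb]
        obtain ⟨e1, e2⟩ := ha x s _ hs (hνh.mul hμh)
        rw [show y = Sp.bsc c x from funext e', map_mul (kill Q.B), Sp.kill_C, hνk, mul_assoc,
          map_sub, map_mul, eval_C, e1, e2]
        field_simp
        ring
      | zero => exact ⟨0, by rw [map_zero, zero_mul, map_zero]; rfl⟩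
      | add a b _ _ ha hb =>
        obtain ⟨r, rfl⟩ := ha
        obtain ⟨s, rfl⟩ := hb
        exact ⟨r + s, by rw [map_add, add_mul, map_add]; rfl⟩
      | neg a _ ha =>
        obtain ⟨r, rfl⟩ := ha
        exact ⟨-r, by rw [map_neg, neg_mul, map_neg]; rfl⟩
    obtain ⟨r, hr⟩ := key _ (valH_mem m)
    exact ⟨Ideal.Quotient.mk Q.I r, valH_inj _ _ ((hval r).trans hr)⟩

end Crest.Agent.N265
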